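import Vale.Agent.P004K.St2
import Vale.Agent.P004Z.Fin.St

/-! # P004F, block QEXP: the depleted parametrisation at ordinary CM points (statements) -/

set_option autoImplicit false

open UpperHalfPlane NumberField CongruenceSubgroup
open scoped MatrixGroups Classical

noncomputable section

namespace Vale.Agent.P004F.Qx

open Vale.Agent.P022 P027H P027M.M Vale.Agent.P022.H218.L3 Vale.Agent.P022.H236.L3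
  Vale.Agent.P022.H542.L3 P004K
open P004Z.EF (Val RatS Par)
open P004Z.Fin (Ov)
open P004M.TE (Pt ga)

/-! ### the formal group -/

section

variable {A B : ℤ}

/-- the formal parameter `-x / y` -/
def zf : Pt A B → Qb
  | .zero => 0
  | .some x y _ => -x / y

/-- the formal group at level `κ` -/
def Fk (P : Ideal (𝓞 Qb)) (κ : ℕ) (y : Pt A B) : Prop := K1 P y ∧ Ip P (zf y / κ)

/-- fixed by the inertia group -/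
def Ur (P : Ideal (𝓞 Qb)) (y : Pt A B) : Prop :=
  ∀ g : GQ, (∀ x : 𝓞 Qb, g • x - x ∈ P) → ga g y = y

end

/-- the kernel of the reduction and its filtration -/
def FG : Prop := ∀ (A B : ℤ), 4 * A ^ 3 + 27 * B ^ 2 ≠ 0 → ∀ P : Ideal (𝓞 Qb), P.IsPrime → P ≠ ⊥ →
  K1 P (0 : Pt A B) ∧ (∀ y y' : Pt A B, K1 P y → K1 P y' → K1 P (y - y')) ∧
  (∀ g : GQ, (∀ x : 𝓞 Qb, g • x ∈ P ↔ x ∈ P) → ∀ y : Pt A B, K1 P y → K1 P (ga g y)) ∧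
  ((2 : 𝓞 Qb) ∉ P → ∀ y : Pt A B, K1 P y → ∃! w, K1 P w ∧ 2 • w = y) ∧
  (∀ z, Zp P z → ∃! y : Pt A B, K1 P y ∧ zf y = z) ∧
  ∀ κ : ℕ, κ ≠ 0 →
    (∀ y y' : Pt A B, Fk P κ y → Fk P κ y' → Fk P κ (y - y') ∧
      Zp P (zf (y - y') / κ - (zf y / κ - zf y' / κ))) ∧
    (∀ g : GQ, (∀ x : 𝓞 Qb, g • x ∈ P ↔ x ∈ P) → ∀ y : Pt A B, Fk P κ y → Fk P κ (ga g y)) ∧
    (2 ∣ κ → ∀ y : Pt A B, (Fk P κ y → Fk P (2 * κ) (2 • y) ∧ (2 • y = 0 → y = 0)) ∧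
      (Fk P (2 * κ) y → ∃ w, Fk P κ w ∧ 2 • w = y ∧ Zp P (zf w / κ - zf y / (2 * κ : ℕ))))

/-- `p` is a uniformiser of the inertia field -/
def UNV : Prop := ∀ (p : ℕ) (P : Ideal (𝓞 Qb)), p.Prime → P.IsPrime → (p : 𝓞 Qb) ∈ P → ∀ a : Qb,
  (∀ g : GQ, (∀ x : 𝓞 Qb, g • x - x ∈ P) → g a = a) → Zp P a → Ip P (a / p)

/-- **the unramified points of the formal group at two are free of rank one** over the group ring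
of `⟨φ⟩ / ⟨φ ^ f⟩`, modulo every power of two (this replaces the logarithm) -/
def FR : Prop := ∀ (A B : ℤ), 4 * A ^ 3 + 27 * B ^ 2 ≠ 0 → ∀ P : Ideal (𝓞 Qb), P.IsPrime →
  (2 : 𝓞 Qb) ∈ P → ∀ κ : ℕ, κ ≠ 0 → 2 ∣ κ → ∀ φ : GQ, (∀ x : 𝓞 Qb, φ • x - x ^ 2 ∈ P) →
  ∀ f : ℕ, 0 < f → ∃ e : Pt A B, Fk P κ e ∧ Ur P e ∧ ga (φ ^ f) e = e ∧
    ¬ Zp P (∑ i ∈ Finset.range f, (φ ^ i) (zf e / κ)) ∧
    (∀ (k : ℕ) (n : ℕ → ℤ) (w : Pt A B), Fk P κ w →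
      ∑ i ∈ Finset.range f, n i • ga (φ ^ i) e = 2 ^ k • w → ∀ i < f, 2 ^ k ∣ n i) ∧
    ∀ (k : ℕ) (y v : Pt A B), Fk P κ y → Ur P y → Fk P κ v → ga (φ ^ f) y - y = 2 ^ k • v →
      ∃ (n : ℕ → ℤ) (w : Pt A B), Fk P κ w ∧ Ur P w ∧
        y = ∑ i ∈ Finset.range f, n i • ga (φ ^ i) e + 2 ^ k • w ∧
        (0 < k → Zp P (zf y / κ - ∑ i ∈ Finset.range f, n i * (φ ^ i) (zf e / κ)))

/-! ### the expansion principle at ordinary CM points -/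

/-- `τ` has multiplication by a unit `β` of discriminant `D` which maps `ℤ τ + ℤ` into `ℤ M τ + ℤ`:
it reduces to the component of the cusp `∞` -/
def Ty (V : AbsoluteValue ℂ ℝ) (M : ℕ) (D : ℤ) (τ : ℍ) : Prop := ∃ (m n m' n' : ℤ) (β : ℂ),
  β * τ = m * M * τ + n ∧ β = m' * M * τ + n' ∧ V β = 1 ∧ D = (n' - m * M) ^ 2 + 4 * m' * M * n

/-- **the maximum principle** -/
def MPV : Prop := ∀ (V : AbsoluteValue ℂ ℝ) (p M : ℕ), Ov V p → 0 < M → p ∣ M →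
  ∀ u ∈ MF (Gamma0 M), ∀ s, ExM 1 s u → (∀ n, V (s.coeff n) ≤ 1) →
  ∃ T : Finset ℤ, 0 ∉ T ∧ ∀ D τ, Ty V M D τ → (∀ D' ∈ T, ¬ IsSquare (D * D')) →
    ∃ c, V c ≤ 1 ∧ Val τ u c

/-- `V` lies over `P` -/
def Vp (V : AbsoluteValue ℂ ℝ) (P : Ideal (𝓞 Qb)) : Prop := IsNonarchimedean V ∧
  ∀ a : Qb, (Ip P a ↔ V (io a) ≤ 1) ∧ (Zp P a ↔ V (io a) < 1)

/-- places of `ℂ` over the primes of `ℚ̄` -/
def VEX : Prop := ∀ P : Ideal (𝓞 Qb), P.IsPrime → P ≠ ⊥ → ∃ V, Vp V P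

/-- `M = I I'` with `O / I = ℤ / M` -/
structure Sp {O : Type} [CommRing O] (M : ℕ) (I I' : Ideal O) : Prop where
  cn : Cn M I
  cop : I ⊔ I' = ⊤
  mul : I * I' = Ideal.span {(M : O)}

/-- conjugates of Heegner points -/
def TYP : Prop := ∀ (K : Type) [Field K] [NumberField K] (j : K →+* Qb), Iq K →
  ∀ (M c δ : ℕ) (θ : 𝓞 K) (I I' : Ideal (𝓞 K)) (P : Ideal (𝓞 Qb)) (V : AbsoluteValue ℂ ℝ),
  0 < M → θ ^ 2 = -(δ : 𝓞 K) → δ ≠ 0 → Sp M I I' → P.IsPrime → Vp V P → I ≤ below j P →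
  (c : 𝓞 Qb) ∉ P → ∀ g ∈ GK j, ∀ σ τ τ', Ex σ g → Hp (JJ j) M I c τ → Cj0 σ M τ τ' →
  ∃ D, Ty V M D τ' ∧ D ≠ 0 ∧ IsSquare (D * -δ)

/-- **the maximum principle at Heegner points**: all but finitely many fields -/
def MPC : Prop := ∀ (V : AbsoluteValue ℂ ℝ) (P : Ideal (𝓞 Qb)) (M : ℕ), P.IsPrime → P ≠ ⊥ →
  Vp V P → 0 < M → ∀ u ∈ MF (Gamma0 M), ∀ s, ExM 1 s u → (∀ n, V (s.coeff n) ≤ 1) →
  ∃ T : ℕ, ∀ δ, T ≤ δ → Squarefree δ →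
  ∀ (K : Type) [Field K] [NumberField K] (j : K →+* Qb), Iq K →
  ∀ (c : ℕ) (θ : 𝓞 K) (I I' : Ideal (𝓞 K)), θ ^ 2 = -(δ : 𝓞 K) → Sp M I I' → I ≤ below j P →
  (c : 𝓞 Qb) ∉ P → ∀ g ∈ GK j, ∀ σ τ τ', Ex σ g → Hp (JJ j) M I c τ → Cj0 σ M τ τ' →
  ∃ a, V a ≤ 1 ∧ Val τ' u a

/-! ### depletion -/

/-- the coefficients prime to `R` -/
def dp (R : ℕ) (a : ℕ → ℤ) (n : ℕ) : ℤ := if n.Coprime R then a n else 0

/-- the function with the parameter `κ ∑ dp n / n q ^ n`, `κ = R²` -/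
def tp (R : ℕ) (a : ℕ → ℤ) (τ : ℍ) : ℂ := R ^ 2 * P004N.Pr (fun n => (dp R a n : ℂ)) τ

/-- `s` is a power series with rational coefficients which are integral at `p` -/
def Zq (p : ℕ) (s : LS) : Prop := (∀ n < 0, s.coeff n = 0) ∧
  ∀ n : ℕ, ∃ (k : ℤ) (d : ℕ), ¬ p ∣ d ∧ d * s.coeff n = k

/-- `s` is congruent to `∑ b n / n q ^ n` modulo `p` -/
def Cq (p : ℕ) (b : ℕ → ℤ) (s : LS) : Prop :=
  ∀ n : ℕ, ∃ (k : ℤ) (d : ℕ), ¬ p ∣ d ∧ d * (s.coeff n - b n / n) = p * k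

/-- **the expansion lemma**: `u = - x / (y κ)` and `v = - 1 / (y κ)` -/
def QX : Prop := ∀ (M R : ℕ) (A B : ℤ) (Λ : Submodule ℤ ℂ) (f : ℍ → ℂ) (a : ℕ → ℤ), 0 < M → 0 < R →
  IsLat Λ → g2 Λ = -4 * A → g3 Λ = -4 * B → P004N.S2 M f → P004N.QE f (fun n => (dp R a n : ℂ)) →
  a 0 = 0 → (∀ γ ∈ Gamma0 M, ∀ τ, tp R a (γ • τ) - tp R a τ ∈ Λ) →
  ∃ u ∈ MF (Gamma0 M), ∃ v ∈ MF (Gamma0 M), ∃ s t, ExM 1 s u ∧ ExM 1 t v ∧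
    (∀ p, p.Prime → p ∣ R → Zq p s ∧ Cq p (dp R a) s ∧ Zq p t) ∧
    ∀ τ c c', Val τ u c → Val τ v c' → (tp R a τ ∈ Λ → c = 0) ∧ (tp R a τ ∉ Λ →
      R ^ 2 * c * dwp Λ (tp R a τ) = -2 * wp Λ (tp R a τ) ∧ R ^ 2 * c' * dwp Λ (tp R a τ) = -2)

/-- the action as an endomorphism -/
def gE {A B : ℤ} (g : GQ) : AddMonoid.End (Pt A B) := ga g

/-- the operator `p - a p φ + ε φ²` -/
def op {A B : ℤ} (N : ℕ) (a : ℕ → ℤ) (p : ℕ) (φ : GQ) : AddMonoid.End (Pt A B) :=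
  (p : AddMonoid.End (Pt A B)) - a p • gE φ + (if p ∣ N then 0 else gE (φ * φ))

/-- the depleted point -/
def dep {A B : ℤ} (N w : ℕ) (a : ℕ → ℤ) (S : List ℕ) (φ : ℕ → GQ) : AddMonoid.End (Pt A B) :=
  (w * S.prod) • (S.map fun p => op N a p (φ p)).prod

/-- the primes of `S` split, `P p` chooses the factors, `φ p` is a Frobenius element -/
structure Ch {K : Type} [Field K] (j : K →+* Qb) (N : ℕ) (I I' : Ideal (𝓞 K)) (S : List ℕ)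
    (P : ℕ → Ideal (𝓞 Qb)) (Q : ℕ → Ideal (𝓞 K)) (φ : ℕ → GQ) : Prop where
  lev : Sp N I I'
  spl : ∀ p ∈ S, Sp p (below j (P p)) (Q p)
  cop : ∀ p ∈ S, I' ⊔ below j (P p) = ⊤ ∧ I ⊔ Q p = ⊤
  mem : ∀ p ∈ S, φ p ∈ GK j
  frb : ∀ p ∈ S, ∀ x : 𝓞 Qb, φ p • x - x ^ p ∈ P p

/-- the ideal of level `N R²` -/
def IM {K : Type} [Field K] (j : K →+* Qb) (I : Ideal (𝓞 K)) (S : List ℕ)
    (P : ℕ → Ideal (𝓞 Qb)) : Ideal (𝓞 K) := I * (S.map fun p => below j (P p)).prod ^ 2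

/-- the parameter of the depleted point -/
def DEP : Prop := ∀ N G a A B w Λ F x y, P004N.RN N G a → Par N a A B w Λ F x y →
  ∀ S : List ℕ, S.Nodup → (∀ p ∈ S, p.Prime) →
  (∃ f, P004N.S2 (N * S.prod ^ 2) f ∧ P004N.QE f fun n => (dp S.prod a n : ℂ)) ∧
  (∀ γ ∈ Gamma0 (N * S.prod ^ 2), ∀ τ, tp S.prod a (γ • τ) - tp S.prod a τ ∈ Λ) ∧
  ∀ P : ℕ → Ideal (𝓞 Qb), (∀ p ∈ S, (P p).IsPrime ∧ (p : 𝓞 Qb) ∈ P p) →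
  ∀ (K : Type) [Field K] [NumberField K] (j : K →+* Qb), Iq K → ∀ I I' Q φ, Ch j N I I' S P Q φ →
  Sp (N * S.prod ^ 2) (IM j I S P) (I' * (S.map Q).prod ^ 2) ∧
  ∀ c : ℕ, 0 < c → c.Coprime (N * S.prod) → ∀ Y : Pt A B,
    (∀ g σ τ τ', Ex σ g → Hp (JJ j) N I c τ → Cj0 σ N τ τ' → Un Λ (F τ') (ga g Y)) →
    ∀ g σ τ τ', Ex σ g → Hp (JJ j) (N * S.prod ^ 2) (IM j I S P) c τ →
      Cj0 σ (N * S.prod ^ 2) τ τ' → Un Λ (tp S.prod a τ') (ga g (dep N w a S φ Y))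

/-- **QEXP**: the conjugates of the depleted point are in the formal groups at all `P p`, and the
parameter divided by `κ = R²` is the value of one modular function `u ≡ ∑ dp n / n q ^ n` -/
def QEXP : Prop := ∀ N G a A B w Λ F x y, P004N.RN N G a → Par N a A B w Λ F x y →
  ∀ S : List ℕ, S.Nodup → (∀ p ∈ S, p.Prime) →
  ∃ u ∈ MF (Gamma0 (N * S.prod ^ 2)), ∃ s, ExM 1 s u ∧ (∀ p ∈ S, Zq p s ∧ Cq p (dp S.prod a) s) ∧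
  ∀ P : ℕ → Ideal (𝓞 Qb), (∀ p ∈ S, (P p).IsPrime ∧ (p : 𝓞 Qb) ∈ P p) →
  ∃ T : ℕ, ∀ δ, T ≤ δ → Squarefree δ →
  ∀ (K : Type) [Field K] [NumberField K] (j : K →+* Qb), Iq K → ∀ θ : 𝓞 K,
  θ ^ 2 = -(δ : 𝓞 K) → ∀ I I' Q φ, Ch j N I I' S P Q φ →
  ∀ c : ℕ, 0 < c → c.Coprime (N * S.prod) → ∀ Y : Pt A B,
    (∀ g σ τ τ', Ex σ g → Hp (JJ j) N I c τ → Cj0 σ N τ τ' → Un Λ (F τ') (ga g Y)) →
    ∀ g ∈ GK j, ∀ p ∈ S, Fk (P p) (S.prod ^ 2) (ga g (dep N w a S φ Y)) ∧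
      ∀ σ τ τ', Ex σ g → Hp (JJ j) (N * S.prod ^ 2) (IM j I S P) c τ →
        Cj0 σ (N * S.prod ^ 2) τ τ' →
        Val τ' u (io (zf (ga g (dep N w a S φ Y)) / (S.prod ^ 2 : ℕ)))

end Vale.Agent.P004F.Qx
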