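import Vale.Agent.P004F.Qx.Unv
import Vale.Agent.P004Z.Fin.Int
import Vale.Agent.P004K.Bas

/-! # P004F, block QEXP: places of `ℂ` over the primes of `ℚ̄` (row VEX) -/

set_option autoImplicit false
set_option linter.all false

open NumberField
open scoped Classical Pointwise

noncomputable section

namespace Vale.Agent.P004F.Qx

open Vale.Agent.P022 P004K
open P027M.M (io)

namespace Fg

variable {P : Ideal (𝓞 Qb)} {V : AbsoluteValue ℂ ℝ}

theorem ex_prime (hP : P.IsPrime) (h0 : P ≠ ⊥) : ∃ p : ℕ, p.Prime ∧ (p : 𝓞 Qb) ∈ P := by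
  obtain ⟨n, hn, h⟩ := ex_nat h0
  induction n using induction_on_primes with
  | zero => exact absurd rfl hn
  | one => exact absurd (by simpa using h) hP.one_notMem
  | prime_mul p a hp ih =>
    rw [Nat.cast_mul] at h
    exact (hP.mem_or_mem h).elim (fun k => ⟨p, hp, k⟩) (ih (right_ne_zero_of_mul hn))

theorem int_le (h : IsNonarchimedean V) (x : 𝓞 Qb) : V (io x) ≤ 1 := by
  have h1 : IsIntegral (P004Z.Fin.vO h) (io x) :=
    ((RingOfIntegers.isIntegral_coe x).map (io : Qb →+* ℂ).toIntAlgHom).tower_top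
  obtain ⟨y, hy⟩ := IsIntegrallyClosed.isIntegral_iff.1 h1
  exact hy ▸ y.2

theorem vp_of (hP : P.IsPrime) (h0 : P ≠ ⊥) (h : IsNonarchimedean V)
    (hV : ∀ x : 𝓞 Qb, V (io x) < 1 ↔ x ∈ P) : Vp V P := by
  obtain ⟨O, hO⟩ := ex_O hP h0
  have k : ∀ {s t : 𝓞 Qb} {a : Qb}, s ∉ P → (s : Qb) * a = t → V (io a) = V (io t) :=
    fun {s t a} hs e => by
      rw [← e, map_mul, map_mul, le_antisymm (int_le h s) (not_lt.1 (mt (hV s).1 hs)), one_mul]
  have i : ∀ a, Ip P a → V (io a) ≤ 1 := fun a ⟨s, t, b, c⟩ => (k b c).trans_le (int_le h t)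
  have z : ∀ a, Zp P a → V (io a) < 1 := fun a ⟨s, t, b, d, c⟩ => (k b c).trans_lt ((hV t).2 d)
  refine ⟨h, fun a => ?_⟩
  by_cases a0 : a = 0
  · simp [a0, hO.ip, hO.zp]
  have p := V.pos (mt (map_eq_zero io).1 a0)
  refine ⟨⟨i a, fun e => (hO.ip a).2 (not_lt.1 fun d => ?_)⟩, z a,
    fun e => (hO.zp a).2 (not_le.1 fun d => ?_)⟩
  · have := z _ ((hO.zp a⁻¹).2 (by rw [map_inv₀]; exact inv_lt_one_of_one_lt₀ d))
    rw [map_inv₀, map_inv₀, inv_lt_one₀ p] at this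
    exact this.not_ge e
  · have := i _ ((hO.ip a⁻¹).2 (by rw [map_inv₀]; exact inv_le_one_of_one_le₀ d))
    rw [map_inv₀, map_inv₀, inv_le_one₀ p] at this
    exact this.not_gt e

end Fg

open Fg in
/-- row VEX -/
theorem vex : VEX := by
  intro P hP h0
  obtain ⟨p, hp, h⟩ := ex_prime hP h0
  obtain ⟨V, hV, e⟩ := P004Z.Fin.ext p hp
  let φ : 𝓞 Qb →+* P004Z.Fin.vO hV := ((io : Qb →+* ℂ).comp (algebraMap _ _)).codRestrict
    (P004Z.Fin.vO hV) (int_le hV)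
  let Q := (IsLocalRing.maximalIdeal _).comap φ
  have hQ : Q.IsPrime := Ideal.comap_isPrime _ _
  have m : ∀ x : 𝓞 Qb, x ∈ Q ↔ V (io x) < 1 := fun x =>
    (ValuationSubring.valuation_lt_one_iff _ _).trans P004Z.Fin.vO_lt
  have hp' : V p < 1 := e ▸ inv_lt_one_of_one_lt₀ (by exact_mod_cast hp.one_lt)
  have h' : (p : 𝓞 Qb) ∈ Q := (m _).2 (by simpa using hp')
  obtain ⟨g, hg⟩ := H916.exists_smul (algebraMap ℚ Qb) hP hQ (Ideal.ext fun x => by
    obtain ⟨n, rfl⟩ : ∃ n : ℤ, (n : 𝓞 ℚ) = x :=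
      ⟨Rat.ringOfIntegersEquiv x, Rat.ringOfIntegersEquiv.injective (by simp)⟩
    simp only [below, Ideal.mem_comap, map_intCast, int_mem hP hp h, int_mem hQ hp h'])
  obtain ⟨σ, hσ⟩ := ex_ex g
  refine ⟨_, vp_of hP h0 ((P004Z.Fin.Ov.mk hp hV hp').comp (σ : ℂ →+* ℂ)).na fun x => ?_⟩
  rw [← Ideal.smul_mem_pointwise_smul_iff (a := (g : GQ)), ← hg, m]
  exact iff_of_eq (congrArg (V · < 1) (hσ x))

end Vale.Agent.P004F.Qx
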