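import Vale.Agent.P004F.Qx.St
import Vale.Agent.P004K.Hg.At
import Vale.Agent.P004K.Hg.Un
import Vale.Agent.P004K.Lt

/-! # P004F, block QEXP: row DEP (helper4) -/

set_option autoImplicit false
set_option linter.all false

open UpperHalfPlane hiding I
open CongruenceSubgroup NumberField
open scoped MatrixGroups Classical

noncomputable section

namespace Vale.Agent.P004F.Qx

open Vale.Agent.P022 P027H P027M.M P004K
open P004N (S2 QE RN Pr)
open P004N.H461 (sl qe_V sl_V sl_add sl_smul)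
open P004M.TE (Pt ga ga_some)
open P004Z.EF (Par prim_Pr)

namespace De

variable {N M R p c w : ℕ} {f g G F Φ : ℍ → ℂ} {b d : ℕ → ℂ} {a : ℕ → ℤ} {τ τ' : ℍ}
  {σ : ℂ ≃+* ℂ} {Λ : Submodule ℤ ℂ} {A B : ℤ} {S : List ℕ}

/-! ### forms -/

/-- `m τ` -/
def vv (m : ℕ) (τ : ℍ) : ℍ := ofComplex (m * τ)

theorem coe_vv (hp : 0 < p) (τ : ℍ) : (vv p τ : ℂ) = p * τ := by
  rw [vv, ofComplex_apply_of_im_pos (by simpa using mul_pos (Nat.cast_pos.2 hp) τ.im_pos)]

/-- the operator `V_p` on coefficients -/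
def Vc (p : ℕ) (b : ℕ → ℂ) (n : ℕ) : ℂ := if p ∣ n then (p : ℂ) * b (n / p) else 0

theorem qe_Pr (h : QE g b) : QE (Pr b) fun n => b n / n := fun z => by
  refine (Summable.of_norm_bounded (summable_norm_iff.2 (h z).summable) fun n => ?_).hasSum
  rw [norm_mul, norm_mul]
  refine mul_le_mul_of_nonneg_right ?_ (norm_nonneg _)
  rcases eq_or_ne n 0 with rfl | hn
  · simp
  · rw [norm_div, Complex.norm_natCast]
    exact div_le_self (norm_nonneg _) (by exact_mod_cast Nat.pos_of_ne_zero hn)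

theorem pr_V (hp : 0 < p) (h : QE f b) (τ : ℍ) : Pr (Vc p b) τ = Pr b (vv p τ) := by
  have p0 : (p : ℂ) ≠ 0 := Nat.cast_ne_zero.2 hp.ne'
  have k := (qe_V (qe_Pr h) p hp τ).mul_left (p : ℂ)⁻¹
  rw [sl_V _ p hp τ _ (coe_vv hp τ), inv_mul_cancel_left₀ p0] at k
  rw [← k.tsum_eq]
  refine tsum_congr fun n => ?_
  rw [Vc, ← mul_assoc]
  congr 1
  dsimp only
  split_ifs with q
  · obtain ⟨m, rfl⟩ := q
    rw [Nat.mul_div_cancel_left _ hp, Nat.cast_mul, mul_div_mul_left _ _ p0,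
      inv_mul_cancel_left₀ p0]
  · simp

theorem pr_add (h : QE f b) (h' : QE g d) (k : ℂ) (τ : ℍ) :
    Pr (fun n => b n + k * d n) τ = Pr b τ + k * Pr d τ := by
  rw [← ((qe_Pr h τ).add ((qe_Pr h' τ).mul_left k)).tsum_eq]
  exact tsum_congr fun n => by ring

theorem qe_Vc (hp : 0 < p) (h : QE f b) : QE (sl f !![(p : ℤ), 0; 0, 1]) (Vc p b) := qe_V h p hp

theorem pr_step (hp : 0 < p) (h : QE f b) (k l : ℂ) (τ : ℍ) :
    Pr (fun n => b n + k * Vc p b n + l * Vc p (Vc p b) n) τ =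
      Pr b τ + k * Pr b (vv p τ) + l * Pr b (vv p (vv p τ)) := by
  have q := qe_Vc hp h
  rw [pr_add (P004N.H461.QE.add h (P004N.H461.QE.smul q k)) (qe_Vc hp q), pr_add h q, pr_V hp q,
    pr_V hp h, pr_V hp h]

theorem s2_add (h : S2 M f) (h' : S2 M g) (k : ℂ) : S2 M (f + k • g) :=
  S2.mk_sl (h.cusp.add (h'.cusp.smul k)) fun m hm => by rw [sl_add, sl_smul, h.inv hm, h'.inv hm]

/-- `1` at the good primes -/
def ep (N p : ℕ) : ℤ := if p ∣ N then 0 else 1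

theorem dp_step (h : RN N G a) (hp : p.Prime) (co : p.Coprime R) :
    (fun n => (dp (p * R) a n : ℂ)) = fun n => (dp R a n : ℂ) + -a p / p * Vc p (dp R a ·) n +
      ep N p / p * Vc p (Vc p (dp R a ·)) n := by
  have p0 : (p : ℂ) ≠ 0 := Nat.cast_ne_zero.2 hp.ne_zero
  have k : ∀ m, (p * m).Coprime R ↔ m.Coprime R := fun m => by
    rw [Nat.coprime_mul_iff_left, and_iff_right co]
  funext n
  by_cases q : p ∣ n
  · obtain ⟨m, rfl⟩ := q
    have H : (a (p * m) : ℂ) + ep N p * (if p ∣ m then (p : ℂ) * a (m / p) else 0) = a p * a m := by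
      rw [ep]
      by_cases r : p ∣ N
      · rw [if_pos r, (P004N.H461.RN.up hp r h).2]
        simp
      · rw [if_neg r, Int.cast_one, one_mul]
        exact h.te p hp r m
    rw [dp, if_neg fun r => hp.one_lt.ne' (Nat.eq_one_of_dvd_coprimes r (dvd_mul_right _ _)
      (dvd_mul_right _ _))]
    simp only [Vc, dvd_mul_right, if_true, Nat.mul_div_cancel_left _ hp.pos, dp, k]
    by_cases r : m.Coprime R
    · simp only [if_pos r]
      by_cases s : p ∣ m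
      · obtain ⟨l, rfl⟩ := s
        simp only [dvd_mul_right, if_true, Nat.mul_div_cancel_left _ hp.pos, if_pos ((k l).1 r)]
          at H ⊢
        field_simp
        linear_combination -H
      · simp only [if_neg s] at H ⊢
        field_simp
        linear_combination -H
    · simp only [if_neg r]
      by_cases s : p ∣ m
      · obtain ⟨l, rfl⟩ := s
        simp only [dvd_mul_right, if_true, Nat.mul_div_cancel_left _ hp.pos,
          if_neg (mt (k l).2 r)]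
        simp
      · simp [s]
  · simp only [Vc, if_neg q, mul_zero, add_zero, dp, Nat.coprime_mul_iff_right,
      and_iff_right (hp.coprime_iff_not_dvd.2 q).symm]

theorem cop_cons (nd : (p :: S).Nodup) (pr : ∀ q ∈ p :: S, q.Prime) : p.Coprime S.prod :=
  Nat.coprime_list_prod_right_iff.2 fun q hq => (Nat.coprime_primes (pr p List.mem_cons_self)
    (pr q (List.mem_cons_of_mem _ hq))).2 fun e => (List.nodup_cons.1 nd).1 (e ▸ hq)

theorem lev (N p : ℕ) (S : List ℕ) : N * (p :: S).prod ^ 2 = N * S.prod ^ 2 * p * p := by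
  rw [List.prod_cons]
  ring

theorem dp_one : dp 1 a = a := funext fun n => if_pos (Nat.coprime_one_right n)

theorem form (h : RN N G a) : ∀ S : List ℕ, S.Nodup → (∀ p ∈ S, p.Prime) →
    ∃ f, S2 (N * S.prod ^ 2) f ∧ QE f fun n => (dp S.prod a n : ℂ)
  | [], _, _ => ⟨G, by simpa using h.s2, by simpa [dp_one] using h.qe⟩
  | p :: S, nd, pr => by
    obtain ⟨f, s, q⟩ := form h S (List.nodup_cons.1 nd).2 fun q hq => pr q (List.mem_cons_of_mem _ hq)
    have hp := pr p List.mem_cons_self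
    have s1 := P004N.H461.S2.vp hp.pos s
    rw [lev, List.prod_cons, dp_step h hp (cop_cons nd pr)]
    exact ⟨_, s2_add (s2_add (P004N.H461.S2.mono ⟨p * p, mul_assoc _ _ _⟩ s)
      (P004N.H461.S2.mono (dvd_mul_right _ p) s1) _) (P004N.H461.S2.vp hp.pos s1) _,
      P004N.H461.QE.add (P004N.H461.QE.add q (P004N.H461.QE.smul (qe_Vc hp.pos q) _))
        (P004N.H461.QE.smul (qe_Vc hp.pos (qe_Vc hp.pos q)) _)⟩

/-- the depleted parameter -/
def Ph (w : ℕ) (a : ℕ → ℤ) (S : List ℕ) (τ : ℍ) : ℂ :=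
  S.prod * Pr (fun n => (dp S.prod a n : ℂ)) τ / w

theorem ph_cons (h : RN N G a) (nd : (p :: S).Nodup) (pr : ∀ q ∈ p :: S, q.Prime) :
    Ph w a (p :: S) = fun τ => (1 : ℤ) * ((p : ℤ) * Ph w a S τ + (-a p : ℤ) * Ph w a S (vv p τ)) +
      ep N p * Ph w a S (vv p (vv p τ)) := by
  obtain ⟨f, -, q⟩ := form h S (List.nodup_cons.1 nd).2 fun q hq => pr q (List.mem_cons_of_mem _ hq)
  have hp := pr p List.mem_cons_self
  have p0 : (p : ℂ) ≠ 0 := Nat.cast_ne_zero.2 hp.ne_zero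
  funext τ
  rw [Ph, List.prod_cons, dp_step h hp (cop_cons nd pr), pr_step hp.pos q, Ph, Ph, Ph, Nat.cast_mul]
  generalize ((S.prod : ℕ) : ℂ) = r
  push_cast
  field_simp

theorem tp_eq (hw : 0 < w) (τ : ℍ) : tp S.prod a τ = ((w * S.prod : ℕ) : ℤ) * Ph w a S τ := by
  have : (w : ℂ) ≠ 0 := Nat.cast_ne_zero.2 hw.ne'
  rw [tp, Ph, Int.cast_natCast, Nat.cast_mul]
  field_simp

/-! ### conjugates -/

theorem cj_mul {ψ : ℂ → ℂ} {k : ℤ} (hM : 0 < M) (hp : 0 < p) (t : Tp σ (lat τ) (lat τ') ψ)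
    (h : ψ (1 / (M * p : ℕ)) - k / (M * p : ℕ) ∈ lat τ') : ψ (1 / M) - k / M ∈ lat τ' := by
  have : (M : ℂ) ≠ 0 := Nat.cast_ne_zero.2 hM.ne'
  have : (p : ℂ) ≠ 0 := Nat.cast_ne_zero.2 hp.ne'
  have k := t.int p (1 / (M * p : ℕ))
  rw [show ((p : ℤ) : ℂ) * (1 / (M * p : ℕ)) = 1 / M by push_cast; field_simp] at k
  exact mem_of_eq (add_mem k (nat_mul_mem p h)) (by push_cast; field_simp; ring)

theorem cj_dn (hM : 0 < M) (hp : 0 < p) (h : Cj0 σ (M * p) τ τ') : Cj0 σ M τ τ' :=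
  let ⟨ψ, t, k, h⟩ := h
  ⟨ψ, t, k, cj_mul hM hp t h⟩

theorem cj_V (hM : 0 < M) (hp : 0 < p) (h : Cj0 σ (M * p) τ τ') : Cj0 σ M (vv p τ) (vv p τ') := by
  have : (M : ℂ) ≠ 0 := Nat.cast_ne_zero.2 hM.ne'
  have : (p : ℂ) ≠ 0 := Nat.cast_ne_zero.2 hp.ne'
  obtain ⟨ψ, t, k, h⟩ := h
  have hh := Hg.hom_ov hp (Hom.refl (lat τ)) (coe_vv hp τ)
  have hh' := Hg.hom_ov hp (Hom.refl (lat τ')) (coe_vv hp τ')
  have k1 := cj_mul hp hM t (mul_comm M p ▸ h)
  obtain ⟨u, v, e⟩ := cop0 t hp k1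
  have e' : (u : ℂ) * k + v * p = 1 := by exact_mod_cast e
  have k2 : ∀ (z : ℂ) (m : ℤ), z - m * (1 / p) ∈ lat τ ↔ ψ z - m * k * (1 / p) ∈ lat τ' := fun z m => by
    have := add_mem (t.int m (1 / p)) (int_mul_mem m k1)
    rw [← t.sub_iff]
    exact ⟨fun r => mem_of_eq (add_mem r this) (by ring),
      fun r => mem_of_eq (sub_mem r this) (by ring)⟩
  have t' := t.sup' Hg.le_ov (hh.isLat (isLat _)) (Hg.le_ov (x := 1 / p)) fun z => by
    rw [Hg.mem_ov, Hg.mem_ov]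
    refine ⟨fun ⟨m, r⟩ => ⟨m * u, (k2 _ _).2 (mem_of_eq (add_mem r (lin_lat τ' 0 (m * v))) ?_)⟩,
      fun ⟨m, r⟩ => ⟨m * k, by simpa using (k2 _ _).1 r⟩⟩
    push_cast
    field_simp
    linear_combination (-m : ℂ) * e'
  refine ⟨_, (t'.homL hh).homR hh'.symm, k, (hh'.2 _).2 (Hg.le_ov (mem_of_eq h ?_))⟩
  rw [show (1 / p * (1 / M) : ℂ) = 1 / (M * p : ℕ) by push_cast; field_simp]
  push_cast
  field_simp

/-- the periods are in `Λ` -/
def Pe (Λ : Submodule ℤ ℂ) (M : ℕ) (Φ : ℍ → ℂ) : Prop := ∀ γ ∈ Gamma0 M, ∀ τ, Φ (γ • τ) - Φ τ ∈ Λ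

theorem Pe.dn (h : Pe Λ M Φ) (p : ℕ) : Pe Λ (M * p) Φ := fun γ hγ =>
  h γ (mem_G0.2 ((Int.natCast_dvd_natCast.2 (dvd_mul_right M p)).trans (mem_G0.1 hγ)))

theorem Pe.V (h : Pe Λ M Φ) (hM : 0 < M) (hp : 0 < p) : Pe Λ (M * p) fun τ => Φ (vv p τ) :=
  fun γ hγ τ => by
    obtain ⟨δ, hδ, e⟩ := (cj0_one hM).1 (cj_V hM hp ((cj0_one (mul_pos hM hp)).2 ⟨γ, hγ, rfl⟩))
    have := h δ hδ (vv p τ)
    rwa [e] at this

theorem Pe.lin {Ψ : ℍ → ℂ} (h : Pe Λ M Φ) (h' : Pe Λ M Ψ) (m k : ℤ) :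
    Pe Λ M fun τ => m * Φ τ + k * Ψ τ := fun γ hγ τ =>
  mem_of_eq (add_mem (int_mul_mem m (h γ hγ τ)) (int_mul_mem k (h' γ hγ τ))) (by ring)

theorem lev_pos (hN : 0 < N) (pr : ∀ q ∈ S, q.Prime) : 0 < N * S.prod ^ 2 :=
  mul_pos hN (pow_pos (List.prod_pos fun q hq => (pr q hq).pos) 2)

theorem ph_nil {x y} (h : Par N a A B w Λ F x y) : Ph w a [] = F :=
  funext fun τ => by simp [Ph, h.I_eq, dp_one]

theorem per {x y} (h : RN N G a) (h' : Par N a A B w Λ F x y) : ∀ S : List ℕ, S.Nodup →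
    (∀ p ∈ S, p.Prime) → Pe Λ (N * S.prod ^ 2) (Ph w a S)
  | [], _, _ => fun γ hγ τ => by
    rw [ph_nil h']
    have hγ' : γ ∈ Gamma0 N := by simpa using hγ
    refine (h'.per _).2 ⟨γ, hγ', fun z => ?_⟩
    simp only [h'.I_eq, ← sub_div]
    rw [(prim_Pr h.qe (by simp [h.zero])).period (h.s2.slash γ hγ') z τ]
  | p :: S, nd, pr => by
    have pr' := fun q hq => pr q (List.mem_cons_of_mem _ hq)
    have k := per h h' S (List.nodup_cons.1 nd).2 pr'
    have hp := (pr p List.mem_cons_self).pos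
    have l := lev_pos h.pos pr'
    rw [lev, ph_cons h nd pr]
    exact (((k.dn p).dn p).lin ((k.V l hp).dn p) _ _).lin ((k.V l hp).V (mul_pos l hp) hp) _ _

/-! ### ideals -/

section
variable {O : Type} [CommRing O] {I J L Q : Ideal O}

theorem sp_l (h : Sp M I J) : (M : O) ∈ I := by simpa using (h.cn.1 M).2 dvd_rfl

theorem sp_r (h : Sp M I J) : (M : O) ∈ J :=
  (mul_comm I J ▸ h.mul).ge.trans Ideal.mul_le_inf (Ideal.mem_span_singleton_self _) |>.1

theorem cop_of (co : M.Coprime p) (h : (M : O) ∈ I) (k : (p : O) ∈ J) : IsCoprime I J := by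
  obtain ⟨u, v, e⟩ := (Nat.isCoprime_iff_coprime.2 co).map (Int.castRingHom O)
  rw [Ideal.isCoprime_iff_sup_eq, Ideal.eq_top_iff_one, ← e]
  exact Submodule.add_mem_sup (I.mul_mem_left _ (by simpa using h))
    (J.mul_mem_left _ (by simpa using k))

theorem sp_step [IsDedekindDomain O] [CharZero O] (hM : 0 < M) (h : Sp M I J) (k : Sp p L Q)
    (a : IsCoprime J L) (b : IsCoprime I Q) : Sp (M * p) (I * L) (J * Q) := by
  have c1 := Ideal.isCoprime_iff_sup_eq.2 h.cop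
  have c2 := Ideal.isCoprime_iff_sup_eq.2 k.cop
  have e : I * L * (J * Q) = Ideal.span {((M * p : ℕ) : O)} := by
    rw [mul_mul_mul_comm, h.mul, k.mul, Ideal.span_singleton_mul_span_singleton, Nat.cast_mul]
  refine ⟨⟨fun n => ⟨fun hn => ?_, ?_⟩, fun x => ?_⟩,
    Ideal.isCoprime_iff_sup_eq.1 ((c1.mul_right b).mul_left (a.symm.mul_right c2)), e⟩
  · obtain ⟨m, rfl⟩ := (h.cn.1 n).1 (Ideal.mul_le_inf hn).1
    have I0 : I ≠ 0 := fun z => hM.ne' (by simpa [z] using sp_l h)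
    have : I * L ∣ I * (J * Ideal.span {(m : O)}) := by
      rw [← mul_assoc, h.mul, Ideal.span_singleton_mul_span_singleton, Ideal.dvd_span_singleton]
      simpa using hn
    have := a.symm.dvd_of_dvd_mul_left ((mul_dvd_mul_iff_left I0).1 this)
    rw [Nat.cast_mul]
    exact mul_dvd_mul_left _ ((k.cn.1 m).1 (Ideal.dvd_span_singleton.1 this))
  · rintro ⟨m, rfl⟩
    refine (e.ge.trans Ideal.mul_le_inf (Ideal.mem_span_singleton.2 ⟨m, ?_⟩)).1
    push_cast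
    rfl
  · obtain ⟨n, hn⟩ := h.cn.2 x
    rw [← mul_one I, Ideal.one_eq_top, ← Ideal.isCoprime_iff_sup_eq.1 a, Ideal.mul_sup, h.mul] at hn
    obtain ⟨y, hy, z, hz, e'⟩ := Submodule.mem_sup.1 hn
    obtain ⟨u, rfl⟩ := Ideal.mem_span_singleton'.1 hy
    obtain ⟨m, hm⟩ := k.cn.2 u
    refine ⟨n + M * m, ?_⟩
    convert add_mem (Ideal.mul_mem_mul (sp_l h) hm) hz using 1
    push_cast
    linear_combination -e'

theorem cn_norm [IsDedekindDomain O] [Module.Free ℤ O] (h : Cn p L) : Ideal.absNorm L = p := by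
  have s : Function.Surjective (Int.castRingHom (O ⧸ L)) := fun x => by
    obtain ⟨x, rfl⟩ := Ideal.Quotient.mk_surjective x
    obtain ⟨k, hk⟩ := h.2 x
    exact ⟨k, by rwa [eq_comm, eq_intCast, ← map_intCast (Ideal.Quotient.mk L), Ideal.Quotient.eq]⟩
  have e : RingHom.ker (Int.castRingHom (O ⧸ L)) = Ideal.span {(p : ℤ)} := by
    ext k
    rw [RingHom.mem_ker, Ideal.mem_span_singleton, ← h.1, eq_intCast,
      ← map_intCast (Ideal.Quotient.mk L), Ideal.Quotient.eq_zero_iff_mem]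
  rw [Ideal.absNorm_apply, Submodule.cardQuot_apply,
    ← Nat.card_congr (RingHom.quotientKerEquivOfSurjective s).toEquiv, e,
    Nat.card_congr (Int.quotientSpanNatEquivZMod p).toEquiv, Nat.card_zmod]

theorem cop_pr {X : ℕ → Ideal O} (a : IsCoprime I L) (k : ∀ q ∈ S, IsCoprime (X q) L) :
    IsCoprime (I * (S.map X).prod ^ 2) L :=
  a.mul_left (List.prod_induction (fun x => IsCoprime x L) (fun _ _ => IsCoprime.mul_left)
    isCoprime_one_left fun x hx => by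
      obtain ⟨q, hq, rfl⟩ := List.mem_map.1 hx
      exact k q hq).pow_left

end

/-! ### points -/

theorem ga_mul (g h : GQ) (Y : Pt A B) : ga (g * h) Y = ga g (ga h Y) := by
  rcases Y with _ | ⟨x, y, h'⟩
  · change ga (g * h) 0 = ga g (ga h 0)
    simp
  · rw [ga_some, ga_some, ga_some]
    rfl

theorem op_apply (φ : GQ) (Y : Pt A B) : op N a p φ Y =
    (1 : ℤ) • ((p : ℤ) • Y + (-a p) • ga φ Y) + ep N p • ga φ (ga φ Y) := by
  rw [← ga_mul, op, ep]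
  split_ifs
  · change p • Y - a p • ga φ Y + 0 = _
    simp [sub_eq_add_neg]
  · change p • Y - a p • ga φ Y + ga (φ * φ) Y = _
    simp [sub_eq_add_neg]

variable {K : Type} [Field K] [NumberField K] {j : K →+* Qb} {I J L Q : Ideal (𝓞 K)} {Y : Pt A B}

/-- `Φ` is the parameter of the conjugates of `Y` -/
def Rl (Λ : Submodule ℤ ℂ) (j : K →+* Qb) (c M : ℕ) (I : Ideal (𝓞 K)) (Φ : ℍ → ℂ) (Y : Pt A B) :
    Prop := ∀ g σ τ τ', Ex σ g → Hp (JJ j) M I c τ → Cj0 σ M τ τ' → Un Λ (Φ τ') (ga g Y)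

theorem Rl.lin {x y} (h' : Par N a A B w Λ F x y) {Ψ : ℍ → ℂ} {Z : Pt A B} (h : Rl Λ j c M I Φ Y)
    (k : Rl Λ j c M I Ψ Z) (m n : ℤ) :
    Rl Λ j c M I (fun τ => m * Φ τ + n * Ψ τ) (m • Y + n • Z) := fun g σ τ τ' e1 e2 e3 => by
  obtain ⟨ex, -, -, v⟩ := Hg.un_iff h'.lat h'.g2_eq h'.g3_eq
  have a := (v _ _).1 (h g σ τ τ' e1 e2 e3)
  have b := (v _ _).1 (k g σ τ τ' e1 e2 e3)
  simp only [v, ← zsmul_eq_mul, map_add, map_zsmul, a, b]

theorem Rl.up (H : HG1) (q : Iq K) (hM : 0 < M) (hp : 0 < p) (hc : 0 < c) (co : c.Coprime M)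
    (co' : c.Coprime p) (s : Cn M I) (s' : Cn p L) (s2 : Cn (M * p) (I * L)) {φ : GQ}
    (ar : Ar j c L φ) (h : Rl Λ j c M I Φ Y) : Rl Λ j c (M * p) (I * L) Φ Y ∧
      Rl Λ j c (M * p) (I * L) (fun τ => Φ (vv p τ)) (ga φ Y) := by
  have k := fun τ => (H K j q M c I hM hc co s).2.2.2.2 p L τ hp co' s2 s'
  obtain ⟨ρ, e⟩ := ex_ex φ
  refine ⟨fun g σ τ τ' e1 e2 e3 => h g σ τ τ' e1 (k τ e2).1 (cj_dn hM hp e3),
    fun g σ τ τ' e1 e2 e3 => ?_⟩
  rw [← ga_mul]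
  exact h _ _ τ _ (e1.mul e) (k τ e2).1
    (((k τ e2).2 φ ρ _ ar e (coe_vv hp τ)).trans (cj_V hM hp e3))

theorem gal (H : HG1) (H2 : RC2) {x y} (h : RN N G a) (h' : Par N a A B w Λ F x y) (q : Iq K)
    {P : ℕ → Ideal (𝓞 Qb)} {Q : ℕ → Ideal (𝓞 K)} {φ : ℕ → GQ} : ∀ S : List ℕ, S.Nodup →
    (∀ p ∈ S, p.Prime) → (∀ p ∈ S, (P p).IsPrime ∧ (p : 𝓞 Qb) ∈ P p) → Ch j N I J S P Q φ →
    Sp (N * S.prod ^ 2) (IM j I S P) (J * (S.map Q).prod ^ 2) ∧
    ∀ c : ℕ, 0 < c → c.Coprime (N * S.prod) → ∀ Y : Pt A B, Rl Λ j c N I F Y →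
      Rl Λ j c (N * S.prod ^ 2) (IM j I S P) (Ph w a S) ((S.map fun p => op N a p (φ p)).prod Y)
  | [], _, _, _, C => by
    simp only [IM, ph_nil h', List.map_nil, List.prod_nil, one_pow, mul_one]
    exact ⟨C.lev, fun c _ _ Y r => r⟩
  | p :: S, nd, pr, hP, C => by
    have m : ∀ {q}, q ∈ S → q ∈ p :: S := List.mem_cons_of_mem p
    have pr' := fun q hq => pr q (m hq)
    have m0 : p ∈ p :: S := List.mem_cons_self
    have hp := pr p m0
    have l := lev_pos h.pos pr'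
    obtain ⟨s, k⟩ := gal H H2 h h' q S (List.nodup_cons.1 nd).2 pr' (fun q hq => hP q (m hq))
      ⟨C.lev, fun q hq => C.spl q (m hq), fun q hq => C.cop q (m hq),
        fun q hq => C.mem q (m hq), fun q hq => C.frb q (m hq)⟩
    have s' := C.spl p m0
    have cq : ∀ q ∈ S, q.Coprime p := fun q hq =>
      (Nat.coprime_list_prod_right_iff.1 (cop_cons nd pr) q hq).symm
    have a1 := cop_pr (Ideal.isCoprime_iff_sup_eq.2 (C.cop p m0).1) fun q hq =>
      cop_of (cq q hq) (sp_r (C.spl q (m hq))) (sp_l s')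
    have b1 := cop_pr (Ideal.isCoprime_iff_sup_eq.2 (C.cop p m0).2) fun q hq =>
      cop_of (cq q hq) (sp_l (C.spl q (m hq))) (sp_r s')
    have c1 := Ideal.isCoprime_iff_sup_eq.2 s'.cop
    have s1 := sp_step l s s' a1 b1
    have s2 := sp_step (mul_pos l hp.pos) s1 s' (a1.mul_left c1.symm) (b1.mul_left c1)
    rw [lev, show IM j I (p :: S) P = IM j I S P * below j (P p) * below j (P p) by
      rw [IM, IM, List.map_cons, List.prod_cons]; ring, show J * ((p :: S).map Q).prod ^ 2 =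
        J * (S.map Q).prod ^ 2 * Q p * Q p by rw [List.map_cons, List.prod_cons]; ring]
    refine ⟨s2, fun c hc co Y r => ?_⟩
    rw [List.prod_cons, mul_left_comm, Nat.coprime_mul_iff_right] at co
    have cM : c.Coprime (N * S.prod ^ 2) := co.2.pow_right 2 |>.coprime_dvd_right ⟨N, by ring⟩
    have ar : Ar j c (below j (P p)) (φ p) := by
      simpa using (H2 K j q c hc).2.2.2.2.2.2 (P p) (hP p m0).1
        (fun z => hp.ne_zero (by simpa [z] using (hP p m0).2))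
        (fun z => (hP p m0).1.ne_top (by
          simpa using Ideal.isCoprime_iff_sup_eq.1 (cop_of co.1 z (hP p m0).2))) _ (C.mem p m0) 1
        (by simpa [cn_norm s'.cn] using C.frb p m0)
    obtain ⟨r1, r2⟩ := (k c hc co.2 Y r).up H q l hp.pos hc cM co.1 s.cn s'.cn s1.cn ar
    have u := fun {Φ Y} => @Rl.up _ p c Φ Λ A B K _ _ j _ _ Y H q (mul_pos l hp.pos) hp.pos hc
      (cM.mul_right co.1) co.1 s1.cn s'.cn s2.cn _ ar
    rw [ph_cons h nd pr, List.map_cons, List.prod_cons, AddMonoid.End.coe_mul, Function.comp_apply,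
      op_apply]
    exact (((u r1).1.lin h' (u r2).1 _ _).lin h' (u r2).2 _ _)

end De

open De

/-- row DEP -/
theorem dep_row (H : HG1) (H2 : RC2) : DEP := fun N G a A B w Λ F x y h h' S nd pr => by
  refine ⟨form h S nd pr, fun γ hγ τ => ?_, fun P hP K _ _ j q I I' Q φ C => ?_⟩
  · rw [tp_eq h'.wpos, tp_eq h'.wpos, ← mul_sub]
    exact int_mul_mem _ (per h h' S nd pr γ hγ τ)
  · obtain ⟨s, k⟩ := gal H H2 h h' q S nd pr hP C
    refine ⟨s, fun c hc co Y r g σ τ τ' e1 e2 e3 => ?_⟩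
    have := (k c hc co Y r).lin h' (k c hc co Y r) ((w * S.prod : ℕ) : ℤ) 0 g σ τ τ' e1 e2 e3
    rw [zero_zsmul, add_zero, natCast_zsmul] at this
    rw [tp_eq h'.wpos]
    simp only [Int.cast_zero, zero_mul, add_zero] at this
    exact this

end Vale.Agent.P004F.Qx
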