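import Vale.Agent.P004Z.EF.Ode

/-! # P004F, block QEXP: the formal parameter as a function of the logarithm -/

set_option autoImplicit false
set_option linter.all false

open Filter Topology PowerSeries

noncomputable section

namespace Vale.Agent.P004F.Qx.Hz

open Vale.Agent.P022.H236 Vale.Agent.P022K.Sh.Un Vale.Agent.P027H P004Z.EF

variable {Λ : Submodule ℤ ℂ} {p : ℕ}

/-- `- x / y` -/
def Zf (Λ : Submodule ℤ ℂ) (t : ℂ) : ℂ := -2 * wp Λ t / dwp Λ t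

/-- `- 1 / y` -/
def Wf (Λ : Submodule ℤ ℂ) (t : ℂ) : ℂ := -2 / dwp Λ t

theorem Zf_mem (h : IsLat Λ) {t : ℂ} (k : t ∈ Λ) : Zf Λ t = 0 := by simp [Zf, h.dwp_mem k]

theorem Wf_mem (h : IsLat Λ) {t : ℂ} (k : t ∈ Λ) : Wf Λ t = 0 := by simp [Wf, h.dwp_mem k]

theorem Zf_congr (h : IsLat Λ) {z w : ℂ} (k : z - w ∈ Λ) : Zf Λ z = Zf Λ w := by
  rw [Zf, Zf, h.wp_congr k, h.dwp_congr k]

theorem an0 (h : IsLat Λ) : AnalyticAt ℂ (Zf Λ) 0 ∧ AnalyticAt ℂ (Wf Λ) 0 ∧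
    ∀ᶠ t in 𝓝[≠] (0 : ℂ), dwp Λ t ≠ 0 := by
  have k := h.notMem_zero
  obtain ⟨L, rfl⟩ := id h
  have a := P014G.pa_analytic L
  have b : AnalyticAt ℂ (fun z => z * deriv (P014G.pa L) z - 2 * P014G.pa L z) 0 :=
    (analyticAt_id.mul a.deriv).sub (analyticAt_const.mul a)
  have b0 : (fun z => z * deriv (P014G.pa L) z - 2 * P014G.pa L z) 0 ≠ 0 := by
    simp [P014G.pa_zero]
  have k' := eventually_nhdsWithin_iff.1 k
  refine ⟨(((analyticAt_const (v := -2)).mul (analyticAt_id.mul a)).div b b0).congr ?_,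
    (((analyticAt_const (v := -2)).mul (analyticAt_id.pow 3)).div b b0).congr ?_, ?_⟩
  · filter_upwards [k'] with t ht
    obtain rfl | t0 := eq_or_ne t 0
    · simp [Zf_mem h (zero_mem _)]
    · simp only [Pi.div_apply, Pi.mul_apply, id, P014G.pa_deriv L (ht t0), Zf, wp_lat, dwp_lat]
      rw [← mul_div_mul_left _ (L.derivWeierstrassP t) (pow_ne_zero 3 t0), P014G.pa_eq L t0]
      congr 1
      ring
  · filter_upwards [k'] with t ht
    obtain rfl | t0 := eq_or_ne t 0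
    · simp [Wf_mem h (zero_mem _)]
    · simp only [Pi.div_apply, Pi.mul_apply, Pi.pow_apply, id, P014G.pa_deriv L (ht t0), Wf, dwp_lat]
      rw [← mul_div_mul_left _ (L.derivWeierstrassP t) (pow_ne_zero 3 t0), mul_comm]
  · filter_upwards [k, (b.continuousAt.eventually_ne b0).filter_mono nhdsWithin_le_nhds] with t h1 h2
    rw [P014G.pa_deriv L h1] at h2
    exact right_ne_zero_of_mul h2

theorem an_Zf (h : IsLat Λ) {t : ℂ} (k : t ∉ Λ → dwp Λ t ≠ 0) : AnalyticAt ℂ (Zf Λ) t := by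
  by_cases m : t ∈ Λ
  · have := (an0 h).1.comp_of_eq (f := fun z => z - t) (x := t) (by fun_prop) (sub_self t)
    exact this.congr (Eventually.of_forall fun z => Zf_congr h (by simpa using m))
  · exact (analyticAt_const.mul (h.analyticAt_wp m)).div (h.analyticAt_dwp m) (k m)

theorem mer_Zf (h : IsLat Λ) (t : ℂ) : MeromorphicAt (Zf Λ) t :=
  ((MeromorphicAt.const _ _).mul (h.mer_wp t)).div (h.mer_dwp t)

theorem evt {ψ : ℂ → ℂ} (hψ : AnalyticAt ℂ ψ 0) : ∀ᶠ w in 𝓝[≠] (0 : ℂ), Ev (tay 0 ψ) w (ψ w) :=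
  (ev_tay hψ).filter_mono nhdsWithin_le_nhds

theorem ode (h : IsLat Λ) {A B : ℂ} (h2 : g2 Λ = -4 * A) (h3 : g3 Λ = -4 * B) :
    d⁄dX ℂ (tay 0 (Zf Λ)) = 1 + (-2 * A) • (tay 0 (Zf Λ) * tay 0 (Wf Λ)) +
      (-3 * B) • tay 0 (Wf Λ) ^ 2 ∧
    d⁄dX ℂ (tay 0 (Wf Λ)) = (3 : ℂ) • tay 0 (Zf Λ) ^ 2 + A • tay 0 (Wf Λ) ^ 2 := by
  obtain ⟨a, b, c⟩ := an0 h
  rw [← tay_deriv, ← tay_deriv]
  refine ⟨ev_unique ?_, ev_unique ?_⟩
  · filter_upwards [evt a, evt b, evt a.deriv, c, h.notMem_zero] with t e1 e2 e3 e4 e5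
    refine ⟨_, e3, ?_⟩
    convert (Ev.one.add ((e1.mul e2).smul _)).add ((e2.pow 2).smul _) using 1
    have := (((h.hasDerivAt_wp e5).const_mul (-2)).div (h.hasDerivAt_dwp e5) e4).deriv
    rw [show deriv (Zf Λ) t = _ from this, Zf, Wf, h2]
    have o := h.ode e5
    rw [h2, h3] at o
    field_simp
    linear_combination (-3 : ℂ) * o
  · filter_upwards [evt a, evt b, evt b.deriv, c, h.notMem_zero] with t e1 e2 e3 e4 e5
    refine ⟨_, e3, ?_⟩
    convert ((e1.pow 2).smul _).add ((e2.pow 2).smul _) using 1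
    have := ((hasDerivAt_const t (-2 : ℂ)).div (h.hasDerivAt_dwp e5) e4).deriv
    rw [show deriv (Wf Λ) t = _ from this, Zf, Wf, h2]
    field_simp
    ring

/-- all derivatives at the origin are integers -/
theorem hur (h : IsLat Λ) {A B : ℤ} (h2 : g2 Λ = -4 * A) (h3 : g3 Λ = -4 * B) (n : ℕ) :
    (∃ k : ℤ, iteratedDeriv n (Zf Λ) 0 = k) ∧ (∃ k : ℤ, iteratedDeriv n (Wf Λ) 0 = k) ∧
      iteratedDeriv 1 (Zf Λ) 0 = 1 := by
  obtain ⟨o1, o2⟩ := ode h h2 h3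
  have z0 : constantCoeff (tay 0 (Zf Λ)) = 0 := by rw [tay_zero, Zf_mem h (zero_mem _)]
  have w0 : constantCoeff (tay 0 (Wf Λ)) = 0 := by rw [tay_zero, Wf_mem h (zero_mem _)]
  let S := Subring.closure {tay 0 (Zf Λ), tay 0 (Wf Λ)}
  have z : tay 0 (Zf Λ) ∈ S := Subring.subset_closure (by simp)
  have w : tay 0 (Wf Λ) ∈ S := Subring.subset_closure (by simp)
  have sm : ∀ (k : ℤ) (c : ℂ), c = k → ∀ F ∈ S, c • F ∈ S := fun k c e F hF => by
    rw [e, Int.cast_smul_eq_zsmul]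
    exact zsmul_mem hF k
  have dS : ∀ F ∈ S, d⁄dX ℂ F ∈ S := fun F hF => by
    induction hF using Subring.closure_induction with
    | mem x hx =>
      rcases hx with rfl | rfl
      · exact o1 ▸ add_mem (add_mem (one_mem _) (sm (-2 * A) _ (by simp) _ (mul_mem z w)))
          (sm (-3 * B) _ (by simp) _ (pow_mem w 2))
      · exact o2 ▸ add_mem (sm 3 _ (by simp) _ (pow_mem z 2)) (sm A _ rfl _ (pow_mem w 2))
    | zero => simpa using zero_mem S
    | one => simpa using zero_mem S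
    | add x y _ _ a b => simpa using add_mem a b
    | neg x _ a => simpa using a
    | mul x y hx hy a b => simpa using add_mem (mul_mem hx b) (mul_mem hy a)
  have cS : S ≤ (Int.castRingHom ℂ).range.comap constantCoeff := Subring.closure_le.2 (by
    rintro x (rfl | rfl)
    · exact ⟨0, by simp [z0]⟩
    · exact ⟨0, by simp [w0]⟩)
  have key : ∀ H : ℂ → ℂ, tay 0 H ∈ S → ∃ k : ℤ, iteratedDeriv n H 0 = k := fun H hH => by
    have : tay 0 (iteratedDeriv n H) ∈ S := by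
      induction n with
      | zero => simpa using hH
      | succ n ih => exact iteratedDeriv_succ (n := n) (f := H) ▸ tay_deriv _ ▸ dS _ ih
    obtain ⟨k, e⟩ := cS this
    exact ⟨k, by rw [← tay_zero (iteratedDeriv n H), ← e]; rfl⟩
  refine ⟨key _ z, key _ w, ?_⟩
  rw [iteratedDeriv_one, ← tay_zero (deriv _), tay_deriv, o1]
  simp [z0, w0]

/-- the Taylor series of a composite -/
theorem comp {H φ : ℂ → ℂ} (hH : AnalyticAt ℂ H 0) (hφ : AnalyticAt ℂ φ 0) (h0 : φ 0 = 0) (n : ℕ) :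
    coeff n (tay 0 (H ∘ φ)) = ∑ i ∈ Finset.range (n + 1),
      iteratedDeriv i H 0 / i.factorial * coeff n (tay 0 φ ^ i) := by
  obtain ⟨F, hF, e⟩ := hH.exists_eq_sum_add_pow_mul (n + 1)
  have sm : ∀ (m : ℕ) (q : ℂ), Ev (tay 0 φ) q (φ q) → Ev (∑ i ∈ Finset.range m,
      (iteratedDeriv i H 0 / i.factorial) • tay 0 φ ^ i) q
      (∑ i ∈ Finset.range m, (φ q ^ i / i.factorial) • iteratedDeriv i H 0) := fun m q k => by
    induction m with
    | zero => simpa using (Ev.one (z := q)).smul 0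
    | succ m ih =>
      rw [Finset.sum_range_succ, Finset.sum_range_succ]
      convert ih.add ((k.pow m).smul _) using 2
      rw [smul_eq_mul]
      ring
  have : tay 0 (H ∘ φ) = ∑ i ∈ Finset.range (n + 1), (iteratedDeriv i H 0 / i.factorial) •
      tay 0 φ ^ i + tay 0 φ ^ (n + 1) * tay 0 (F ∘ φ) := ev_unique (by
    filter_upwards [evt (hH.comp_of_eq hφ h0), evt hφ, evt (hF.comp_of_eq hφ h0)] with q e1 e2 e3
    refine ⟨_, e1, ?_⟩
    rw [Function.comp_apply, e]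
    exact (sm _ q e2).add ((e2.pow _).mul e3))
  rw [this, map_add, X_pow_dvd_iff.1 ((pow_dvd_pow_of_dvd (X_dvd_iff.2 ((tay_zero φ).trans h0))
    _).mul_right _) n n.lt_succ_self, add_zero, map_sum]
  simp

/-- rational numbers integral at `p` -/
def Zl (hp : p.Prime) : Subring ℂ where
  carrier := {x | ∃ (k : ℤ) (d : ℕ), ¬ p ∣ d ∧ d * x = k}
  mul_mem' := by
    rintro x y ⟨k, d, a, e⟩ ⟨k', d', a', e'⟩
    exact ⟨k * k', d * d', fun z => (hp.dvd_mul.1 z).elim a a', by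
      push_cast; rw [← e, ← e']; ring⟩
  one_mem' := ⟨1, 1, hp.not_dvd_one, by simp⟩
  add_mem' := by
    rintro x y ⟨k, d, a, e⟩ ⟨k', d', a', e'⟩
    exact ⟨k * d' + k' * d, d * d', fun z => (hp.dvd_mul.1 z).elim a a', by
      push_cast; rw [← e, ← e']; ring⟩
  zero_mem' := ⟨0, 1, hp.not_dvd_one, by simp⟩
  neg_mem' := by
    rintro x ⟨k, d, a, e⟩
    exact ⟨-k, d, a, by push_cast; rw [← e]; ring⟩

theorem fac_mem (hp : p.Prime) (i : ℕ) : (p : ℂ) ^ i / (i + 1).factorial ∈ Zl hp := by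
  haveI := Fact.mk hp
  obtain ⟨v, d, hd, e⟩ := Nat.exists_eq_pow_mul_and_not_dvd (i + 1).factorial_ne_zero p hp.ne_one
  have h1 := (padicValNat_dvd_iff_le (i + 1).factorial_ne_zero).1 ⟨d, e⟩
  have h2 := padicValNat_factorial_lt_of_ne_zero p (Nat.add_one_ne_zero i)
  obtain ⟨r, rfl⟩ : ∃ r, i = v + r := Nat.exists_eq_add_of_le (by omega)
  have p0 : (p : ℂ) ≠ 0 := by exact_mod_cast hp.ne_zero
  have d0 : (d : ℂ) ≠ 0 := by
    rintro z
    exact hd (by simp [show d = 0 by exact_mod_cast z])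
  refine ⟨p ^ r, d, hd, ?_⟩
  rw [e]
  push_cast
  field_simp
  ring

theorem pow_int {O : Subring ℂ} {ψ : ℂ⟦X⟧} (h : ∀ n, coeff n ψ ∈ O) (i n : ℕ) :
    coeff n (ψ ^ i) ∈ O := by
  induction i generalizing n with
  | zero =>
    rw [pow_zero, coeff_one]
    split_ifs
    exacts [one_mem _, zero_mem _]
  | succ i ih =>
    rw [pow_succ, coeff_mul]
    exact sum_mem fun x _ => mul_mem (ih _) (h _)

/-- **integrality of `H (κ ψ) / κ`** -/
theorem int (hp : p.Prime) {H φ : ℂ → ℂ} (hH : AnalyticAt ℂ H 0) (hφ : AnalyticAt ℂ φ 0)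
    (h0 : φ 0 = 0) (H0 : H 0 = 0) (hi : ∀ n, ∃ k : ℤ, iteratedDeriv n H 0 = k) {R : ℕ} (R0 : 0 < R)
    (d : p ∣ R) {ψ : ℂ⟦X⟧} (e : tay 0 φ = ((R : ℂ) ^ 2) • ψ) (h : ∀ n, coeff n ψ ∈ Zl hp) (n : ℕ) :
    ∃ x ∈ Zl hp, ((R : ℂ) ^ 2)⁻¹ * coeff n (tay 0 (H ∘ φ)) =
      iteratedDeriv 1 H 0 * coeff n ψ + p * x := by
  obtain ⟨r, rfl⟩ := d
  have r0 : ((p * r : ℕ) : ℂ) ≠ 0 := by exact_mod_cast R0.ne'
  rcases n with _ | n
  · refine ⟨0, zero_mem _, ?_⟩
    have := congrArg constantCoeff e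
    rw [tay_zero, h0, smul_eq_C_mul, map_mul, constantCoeff_C, eq_comm, mul_eq_zero] at this
    simp [tay_zero, h0, H0, this.resolve_left (pow_ne_zero 2 r0)]
  refine ⟨∑ i ∈ Finset.range n, iteratedDeriv (i + 2) H 0 * ((p : ℂ) ^ (i + 1) /
    (i + 1 + 1).factorial) * (p ^ i * r ^ (2 * i + 2) : ℕ) * coeff (n + 1) (ψ ^ (i + 2)),
    sum_mem fun i _ => mul_mem (mul_mem (mul_mem ?_ (fac_mem hp _)) (natCast_mem _ _))
      (pow_int h _ _), ?_⟩
  · obtain ⟨k, e⟩ := hi (i + 2)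
    exact e ▸ intCast_mem _ k
  rw [comp hH hφ h0, Finset.sum_range_succ', Finset.sum_range_succ', e, iteratedDeriv_zero, H0,
    zero_div, zero_mul, add_zero, mul_add, add_comm, Finset.mul_sum, Finset.mul_sum]
  congr 1
  · simp only [zero_add, pow_one, Nat.factorial_one, Nat.cast_one, div_one, coeff_smul, smul_eq_mul]
    field_simp
  refine Finset.sum_congr rfl fun i _ => ?_
  rw [smul_pow, coeff_smul, smul_eq_mul]
  field_simp
  push_cast
  ring

end Vale.Agent.P004F.Qx.Hz
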