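import Vale.Agent.P004F.Qx.St
import Vale.Agent.P004F.Qx.Hz
import Vale.Agent.P004Z.EF.Core

/-! # P004F, block QEXP: the expansion lemma -/

set_option autoImplicit false
set_option linter.all false

open UpperHalfPlane CongruenceSubgroup Filter Topology Function.Periodic PowerSeries
open scoped MatrixGroups

noncomputable section

namespace Vale.Agent.P004F.Qx

open P004N Vale.Agent.P022 Vale.Agent.P022.H218.L3 Vale.Agent.P022.H236 Vale.Agent.P022.H236.L3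
  Vale.Agent.P022.H542.L3 Vale.Agent.P027M.ES Vale.Agent.P022K.Sh.Un P004Z.EF P004Z.EF.Qt
  P004Z.EF.Co Hz
open Vale.Agent.P027H (IsLat wp dwp g2 g3)

namespace Vl

variable {τ : ℍ} {x y : Mer} {c d : ℂ}

theorem uniq (h : Val τ x c) (h' : Val τ x d) : c = d := by
  obtain ⟨g, k, k0, e1, e2⟩ := h
  obtain ⟨g', k', k0', e1', e2'⟩ := h'
  have : g * k' = g' * k := IsFractionRing.injective Hol Mer (by
    rw [map_mul, map_mul, ← e1, ← e1']
    ring)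
  have := congrArg (fun f : Hol => (f : ℍ → ℂ) τ) this
  simp only [MulMemClass.coe_mul, Pi.mul_apply, e2, e2'] at this
  exact mul_right_cancel₀ (mul_ne_zero k0 k0') (by linear_combination this)

theorem mul (h : Val τ x c) (h' : Val τ y d) : Val τ (x * y) (c * d) := by
  obtain ⟨g, k, k0, e1, e2⟩ := h
  obtain ⟨g', k', k0', e1', e2'⟩ := h'
  refine ⟨g * g', k * k', mul_ne_zero k0 k0', by rw [map_mul, map_mul, ← e1, ← e1']; ring, ?_⟩
  simp only [MulMemClass.coe_mul, Pi.mul_apply, e2, e2']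
  ring

theorem sub (h : Val τ x c) (h' : Val τ y d) : Val τ (x - y) (c - d) := by
  obtain ⟨g, k, k0, e1, e2⟩ := h
  obtain ⟨g', k', k0', e1', e2'⟩ := h'
  refine ⟨g * k' - g' * k, k * k', mul_ne_zero k0 k0',
    by rw [map_sub, map_mul, map_mul, map_mul, ← e1, ← e1']; ring, ?_⟩
  simp only [AddSubgroupClass.coe_sub, MulMemClass.coe_mul, Pi.sub_apply, Pi.mul_apply, e2, e2']
  ring

theorem const (τ : ℍ) (c : ℂ) : Val τ (algebraMap ℂ Mer c) c :=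
  ⟨algebraMap ℂ Hol c, 1, one_ne_zero, by rw [map_one, mul_one, ← IsScalarTower.algebraMap_apply],
    (mul_one c).symm⟩

theorem ne (h : Val τ x c) (hc : c ≠ 0) : x ≠ 0 := by
  rintro rfl
  exact hc (uniq h (by simpa using const τ 0))

theorem inv (h : Val τ x c) (hc : c ≠ 0) : Val τ x⁻¹ c⁻¹ := by
  have := ne h hc
  obtain ⟨g, k, k0, e1, e2⟩ := h
  exact ⟨k, g, e2 ▸ mul_ne_zero hc k0, by rw [← e1, inv_mul_cancel_left₀ this],
    by rw [e2, inv_mul_cancel_left₀ hc]⟩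

end Vl

theorem par_gen {N : ℕ} [NeZero N] {f F : ℍ → ℂ} (hf : S2 N f) (hF : Prim f F) {W : ℂ → ℂ}
    (hW : ∀ z, MeromorphicAt W z) (hp : ∀ γ ∈ Gamma0 N, ∀ τ, W (F (γ • τ)) = W (F τ)) :
    ∃ x ∈ MF (Gamma0 N), ∀ τ, AnalyticAt ℂ W (F τ) → Val τ x (W (F τ)) := by
  obtain ⟨n, hn, hw⟩ := Inj.exists_width (Gamma0 N)
  obtain ⟨x, hx, e⟩ := quot (Gamma0 N) (fun τ => W (F τ)) hp
    (fun τ => (hW _).comp_analyticAt (an hF.hol τ)) fun g => by
      obtain ⟨φ, hφ, e⟩ := cusp_fn hf hF hn (hw g)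
      exact ⟨n, W ∘ φ, hn, (hW _).comp_analyticAt hφ, fun τ => congrArg W (e τ)⟩
  exact ⟨x, hx, fun τ hτ => e τ (hτ.comp_of_eq (an hF.hol τ) (by simp))⟩

theorem exl_of {H : ℂ → ℂ} (hH : AnalyticAt ℂ H 0) (r : ℂ) :
    ExL 1 (ls 0 (r • tay 0 H)) fun τ => r * H (qParam (1 : ℕ) τ) :=
  ⟨0, _, rfl, ((tendsto_q one_ne_zero).eventually (evt hH)).mono fun τ h => by
    simpa using h.smul r⟩

theorem zq_of {p : ℕ} (hp : p.Prime) {F : ℂ⟦X⟧} (h : ∀ n, coeff n F ∈ Zl hp) : Zq p (ls 0 F) :=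
  ⟨fun n hn => coeff_ls_of_lt 0 F hn, fun n => by
    have := coeff_ls 0 F n
    rw [zero_add] at this
    exact this ▸ h n⟩

theorem qx : QX := fun M R A B Λ f a M0 R0 h h2 h3 hf hq a0 per => by
  haveI : NeZero M := ⟨M0.ne'⟩
  have c0 : ((dp R a 0 : ℤ) : ℂ) = 0 := by simp [dp, a0]
  have r0 : (R : ℂ) ^ 2 ≠ 0 := pow_ne_zero 2 (by exact_mod_cast R0.ne')
  obtain ⟨φ₀, h₀, z₀, d₀, e₀⟩ := ex_phi hf hq c0
  obtain ⟨φ, eφ⟩ : ∃ φ : ℂ → ℂ, φ = fun q => R ^ 2 * φ₀ q := ⟨_, rfl⟩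
  have hφ : AnalyticAt ℂ φ 0 := eφ ▸ analyticAt_const.mul h₀
  have z : φ 0 = 0 := by simp [eφ, z₀]
  have e : ∀ τ, tp R a τ = φ (qParam (1 : ℕ) τ) := fun τ => by rw [tp, e₀, eφ]
  have e1 : tay 0 φ = ((R : ℂ) ^ 2) • tay 0 φ₀ := by
    rw [smul_eq_C_mul, ← tay_const (z := 0), ← tay_mul analyticAt_const h₀, eφ]
    rfl
  have e2 : ∀ n, coeff n (tay 0 φ₀) = dp R a n / n := fun n => by
    rcases n with _ | n
    · simp [tay_zero, z₀]
    · have := congrArg (coeff n) d₀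
      rw [tay_deriv, coeff_derivative, coeff_mk] at this
      rw [← this, Nat.cast_succ, mul_div_cancel_right₀ _ (by exact_mod_cast n.succ_ne_zero)]
  have e3 : ∀ p (hp : p.Prime), p ∣ R → ∀ n, coeff n (tay 0 φ₀) ∈ Zl hp := fun p hp d n => by
    rw [e2, dp]
    split_ifs with k
    · have n0 : ¬ p ∣ n := fun z => hp.one_lt.ne' (Nat.eq_one_of_dvd_coprimes k z d)
      exact ⟨a n, n, n0, mul_div_cancel₀ _ (Nat.cast_ne_zero.2 fun z => n0 (by simp [z]))⟩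
    · simpa using zero_mem (Zl hp)
  have hP := prim_Pr hq c0
  obtain ⟨aZ, aW, d0⟩ := an0 h
  have hz := hur h h2 h3
  have tq := (tendsto_q one_ne_zero).mono_right nhdsWithin_le_nhds
  have t0 : Tendsto (tp R a) atImInfty (𝓝 0) := by
    rw [funext e, ← z]
    exact hφ.continuousAt.tendsto.comp tq
  have lin : ∀ z : ℂ, AnalyticAt ℂ (fun w : ℂ => R ^ 2 * w) z := fun z => by fun_prop
  obtain ⟨u, hu, vu⟩ := par_gen hf hP (W := fun z => Zf Λ (R ^ 2 * z))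
    (fun z => (mer_Zf h _).comp_analyticAt (lin z)) fun γ hγ τ => Zf_congr h (per γ hγ τ)
  replace vu : ∀ τ, AnalyticAt ℂ (Zf Λ) (tp R a τ) → Val τ (algebraMap ℂ Mer (R ^ 2)⁻¹ * u)
      (((R : ℂ) ^ 2)⁻¹ * Zf Λ (tp R a τ)) := fun τ k =>
    Vl.mul (Vl.const τ _) (vu τ (k.comp_of_eq (lin _) rfl))
  obtain ⟨v, hv, t, et, it, vv⟩ : ∃ v ∈ MF (Gamma0 M), ∃ t, ExM 1 t v ∧
      (∀ p, p.Prime → p ∣ R → Zq p t) ∧
      ∀ τ c', Val τ v c' → tp R a τ ∉ Λ → R ^ 2 * c' * dwp Λ (tp R a τ) = -2 := by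
    rcases hφ.eventually_eq_zero_or_eventually_ne_zero with k | k
    · refine ⟨0, zero_mem _, 0, by simpa using ExM.const 1 0, fun p hp _ =>
        ⟨fun _ _ => rfl, fun n => ⟨0, 1, hp.not_dvd_one, by simp⟩⟩, fun τ _ _ m => (m ?_).elim⟩
      have k1 : tay 0 φ = 0 := (tay_congr (g := fun _ => 0) k).trans (by rw [tay_const, map_zero])
      rw [e1, smul_eq_zero, or_iff_right r0] at k1
      simp [tp, Pr, ← e2, k1]
    have t1 : Tendsto (tp R a) atImInfty (𝓝[≠] 0) := tendsto_nhdsWithin_iff.2 ⟨t0,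
      ((tendsto_q one_ne_zero).eventually k).mono fun τ hτ => by rwa [e]⟩
    obtain ⟨y, hy, vy⟩ := par_gen hf hP (W := fun z => dwp Λ (R ^ 2 * z))
      (fun z => (h.mer_dwp _).comp_analyticAt (lin z)) fun γ hγ τ => h.dwp_congr (per γ hγ τ)
    replace vy : ∀ τ, tp R a τ ∉ Λ → Val τ y (dwp Λ (tp R a τ)) := fun τ k =>
      vy τ ((h.analyticAt_dwp k).comp_of_eq (lin _) rfl)
    have ev := (t1.eventually h.notMem_zero).and (t1.eventually d0)
    obtain ⟨τ₀, k1, k2⟩ := ev.exists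
    have m := mul_mem ((MF (Gamma0 M)).algebraMap_mem (-2 / R ^ 2 : ℂ)) (inv_mem hy)
    refine ⟨_, m, _, exM_of_val m (exl_of (aW.comp_of_eq hφ z) (R ^ 2)⁻¹) (ev.mono fun τ k => ?_),
      fun p hp d => zq_of hp fun n => ?_, fun τ c' k1' k2' => ?_⟩
    · convert Vl.mul (Vl.const τ _) (Vl.inv (vy τ k.1) k.2) using 1
      rw [Function.comp_apply, ← e, Wf]
      ring
    · obtain ⟨x, hx, k⟩ := int hp aW hφ z (Wf_mem h (zero_mem _)) (fun n => (hz n).2.1) R0 d e1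
        (e3 p hp d) n
      obtain ⟨w, hw⟩ := (hz 1).2.1
      rw [coeff_smul, smul_eq_mul, k, hw]
      exact add_mem (mul_mem (intCast_mem _ _) (e3 p hp d n)) (mul_mem (natCast_mem _ _) hx)
    · have := Vl.mul k1' (vy τ k2')
      rw [inv_mul_cancel_right₀ (Vl.ne (vy τ₀ k1) k2)] at this
      rw [mul_assoc, Vl.uniq this (Vl.const τ _), mul_div_cancel₀ _ r0]
  have m := mul_mem ((MF (Gamma0 M)).algebraMap_mem ((R : ℂ) ^ 2)⁻¹) hu
  refine ⟨_, m, v, hv, _, t, exM_of_val m (exl_of (aZ.comp_of_eq hφ z) (R ^ 2)⁻¹)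
    ((t0.eventually aZ.eventually_analyticAt).mono fun τ k => ?_), et, fun p hp d => ?_,
    fun τ c c' k k' => ⟨fun m => ?_, fun m => ⟨?_, vv τ c' k' m⟩⟩⟩
  · rw [Function.comp_apply, ← e]
    exact vu τ k
  · have key := int hp aZ hφ z (Zf_mem h (zero_mem _)) (fun n => (hz n).1) R0 d e1 (e3 p hp d)
    rw [(hz 0).2.2] at key
    refine ⟨zq_of hp fun n => ?_, fun n => ?_, it p hp d⟩
    · obtain ⟨x, hx, k⟩ := key n
      rw [coeff_smul, smul_eq_mul, k, one_mul]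
      exact add_mem (e3 p hp d n) (mul_mem (natCast_mem _ _) hx)
    · obtain ⟨x, ⟨k, d, n1, n2⟩, k'⟩ := key n
      have := coeff_ls 0 (((R : ℂ) ^ 2)⁻¹ • tay 0 (Zf Λ ∘ φ)) n
      rw [zero_add] at this
      refine ⟨k, d, n1, ?_⟩
      rw [this, coeff_smul, smul_eq_mul, k', e2, ← n2]
      ring
  · rw [Vl.uniq k (vu τ (an_Zf h fun n => (n m).elim)), Zf_mem h m, mul_zero]
  · have n0 := right_ne_zero_of_mul ((vv τ c' k' m).trans_ne (by norm_num))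
    rw [Vl.uniq k (vu τ (an_Zf h fun _ => n0)), mul_inv_cancel_left₀ r0, Zf, div_mul_cancel₀ _ n0]

end Vale.Agent.P004F.Qx
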