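import Vale.Agent.P004F.Qx.Typ
import Vale.Agent.P004F.Qx.Qx
import Vale.Agent.P004K.Tr

/-! # P004F, block QEXP: the depleted point is in the formal group -/

set_option autoImplicit false
set_option linter.all false

open UpperHalfPlane hiding I
open CongruenceSubgroup NumberField
open scoped MatrixGroups Classical

noncomputable section

namespace Vale.Agent.P004F.Qx

open Vale.Agent.P022 P027H P027M.M P004K Vale.Agent.P022.H236.L3
open P004Z.EF (Val)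
open P004M.TE (Pt ga)

variable {V : AbsoluteValue ℂ ℝ} {P : Ideal (𝓞 Qb)} {p : ℕ}

theorem nm_cop (hP : P.IsPrime) (k : (p : 𝓞 Qb) ∈ P) {d : ℕ} (h : d.Coprime p) :
    (d : 𝓞 Qb) ∉ P := fun z => by
  obtain ⟨a, b, e⟩ := Nat.Coprime.cast (R := 𝓞 Qb) h
  exact one_nm hP (e ▸ add_mem (P.mul_mem_left a z) (P.mul_mem_left b k))

theorem Zq.le {s : H542.L3.LS} (h : Zq p s) (hp : p.Prime) (hP : P.IsPrime) (k : (p : 𝓞 Qb) ∈ P)
    (hV : Vp V P) (n : ℤ) : V (s.coeff n) ≤ 1 := by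
  rcases lt_or_ge n 0 with hn | hn
  · simp [h.1 n hn]
  lift n to ℕ using hn
  obtain ⟨m, d, h1, h2⟩ := h.2 n
  have h3 : V d = 1 := by
    simpa using hV.one hP (nm_cop hP k ((hp.coprime_iff_not_dvd.2 h1).symm))
  have := hV.1.apply_intCast_le_one (n := m)
  rwa [← h2, map_mul, h3, one_mul] at this

/-- from the values of the two functions to the formal group -/
theorem fk_of {A B : ℤ} {Λ : Submodule ℤ ℂ} (h : IsLat Λ) (h2 : g2 Λ = -4 * A) (h3 : g3 Λ = -4 * B)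
    (hP : P.IsPrime) (hV : Vp V P) {κ : ℕ} (k0 : κ ≠ 0) (k : (κ : 𝓞 Qb) ∈ P) {z a b : ℂ}
    {y : Pt A B} (hy : Un Λ z y) (ha : V a ≤ 1) (hb : V b ≤ 1) (e0 : z ∈ Λ → a = 0)
    (e1 : z ∉ Λ → κ * a * dwp Λ z = -2 * wp Λ z ∧ κ * b * dwp Λ z = -2) :
    Fk P κ y ∧ io (zf y / κ) = a := by
  have key : K1 P y ∧ io (zf y / κ) = a := by
    by_cases m : z ∈ Λ
    · rw [hy.1 m, e0 m]
      exact ⟨fun _ _ _ e => (by cases e), by simp [show zf (0 : Pt A B) = 0 from rfl]⟩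
    obtain ⟨s, t, hn, rfl, es, et⟩ := hy.2 m
    obtain ⟨e2, e3⟩ := e1 m
    have d0 := right_ne_zero_of_mul (e3.trans_ne (by norm_num))
    have k1 : (κ : ℂ) ≠ 0 := by exact_mod_cast k0
    refine ⟨fun s' t' _ e i => ?_, ?_⟩
    · cases e
      rw [(hV.2 s).1, es] at i
      have v1 : V κ < 1 := by simpa using (hV.lt hP).2 k
      have v2 : V κ * V b * V (dwp Λ z / 2) = 1 := by
        rw [← map_mul, ← map_mul, show κ * b * (dwp Λ z / 2) = -1 by linear_combination e3 / 2]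
        simp
      have v3 : V (dwp Λ z / 2) ^ 2 ≤ 1 := by
        rw [← map_pow, show (dwp Λ z / 2) ^ 2 = wp Λ z ^ 3 + A * wp Λ z + B by
          linear_combination h.ode m / 4 - wp Λ z / 4 * h2 - h3 / 4]
        refine (hV.1 _ _).trans (max_le ((hV.1 _ _).trans (max_le ?_ ?_)) hV.1.apply_intCast_le_one)
        · exact map_pow V _ 3 ▸ pow_le_one₀ (V.nonneg _) i
        · exact map_mul V _ _ ▸ mul_le_one₀ hV.1.apply_intCast_le_one (V.nonneg _) i
      have v4 := (pow_le_one_iff_of_nonneg (V.nonneg _) two_ne_zero).1 v3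
      have v5 := mul_le_one₀ hb (V.nonneg _) v4
      nlinarith [V.nonneg (κ : ℂ), mul_nonneg (V.nonneg b) (V.nonneg (dwp Λ z / 2))]
    · rw [zf, map_div₀, map_div₀, map_neg, es, et, map_natCast]
      field_simp
      linear_combination -e2
  exact ⟨⟨key.1, (hV.2 _).1.2 (key.2 ▸ ha)⟩, key.2⟩

theorem qexp (hX : VEX) (hG : HG1) (hD : DEP) : QEXP :=
  fun N G a A B w Λ F x y rn par S nd pr => by
  obtain ⟨⟨f, hf, hq⟩, per, hD⟩ := hD N G a A B w Λ F x y rn par S nd pr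
  have R0 : 0 < S.prod := List.prod_pos fun p hp => (pr p hp).pos
  have M0 : 0 < N * S.prod ^ 2 := mul_pos rn.pos (pow_pos R0 2)
  obtain ⟨u, hu, v, hv, s, t, es, et, int, val⟩ := qx _ _ A B Λ f a M0 R0 par.lat par.g2_eq
    par.g3_eq hf hq rn.zero per
  refine ⟨u, hu, s, es, fun p hp => ⟨(int p (pr p hp) (List.dvd_prod hp)).1,
    (int p (pr p hp) (List.dvd_prod hp)).2.1⟩, fun P hP => ?_⟩
  have P0 : ∀ p ∈ S, P p ≠ ⊥ := fun p hp z => (pr p hp).ne_zero (by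
    simpa [z] using (hP p hp).2)
  haveI : Nonempty (AbsoluteValue ℂ ℝ) := ⟨AbsoluteValue.trivial⟩
  choose! V hV using fun p hp => hX (P p) (hP p hp).1 (P0 p hp)
  choose! T hT using fun p hp => mpc (V p) (P p) _ (hP p hp).1 (P0 p hp) (hV p hp) M0 u hu s es
    ((int p (pr p hp) (List.dvd_prod hp)).1.le (pr p hp) (hP p hp).1 (hP p hp).2 (hV p hp))
  choose! T' hT' using fun p hp => mpc (V p) (P p) _ (hP p hp).1 (P0 p hp) (hV p hp) M0 v hv t et
    ((int p (pr p hp) (List.dvd_prod hp)).2.2.le (pr p hp) (hP p hp).1 (hP p hp).2 (hV p hp))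
  refine ⟨S.toFinset.sup fun p => max (T p) (T' p),
    fun δ le sf K _ _ j q θ hθ I I' Q φ ch c c0 co Y hY g hg p hp => ?_⟩
  obtain ⟨sp, hD⟩ := hD P hP K j q I I' Q φ ch
  have l1 := max_le_iff.1 ((Finset.le_sup (f := fun p => max (T p) (T' p))
    (List.mem_toFinset.2 hp)).trans le)
  have l2 : IM j I S P ≤ below j (P p) := Ideal.mul_le_right.trans ((Ideal.pow_le_self
    two_ne_zero).trans (Ideal.le_of_dvd (List.dvd_prod (List.mem_map_of_mem hp))))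
  have l3 := nm_cop (hP p hp).1 (hP p hp).2
    (co.coprime_dvd_right ((List.dvd_prod hp).mul_left N))
  have key : ∀ σ τ τ', Ex σ g → Hp (JJ j) (N * S.prod ^ 2) (IM j I S P) c τ →
      Cj0 σ (N * S.prod ^ 2) τ τ' → Fk (P p) (S.prod ^ 2) (ga g (dep N w a S φ Y)) ∧
      Val τ' u (io (zf (ga g (dep N w a S φ Y)) / (S.prod ^ 2 : ℕ))) := fun σ τ τ' h1 h2 h3 => by
    obtain ⟨α, a1, a2⟩ := hT p hp δ l1.1 sf K j q c θ _ _ hθ sp l2 l3 g hg σ τ τ' h1 h2 h3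
    obtain ⟨β, b1, b2⟩ := hT' p hp δ l1.2 sf K j q c θ _ _ hθ sp l2 l3 g hg σ τ τ' h1 h2 h3
    obtain ⟨r, hr⟩ := (List.dvd_prod hp).pow two_ne_zero
    have := fk_of par.lat par.g2_eq par.g3_eq (hP p hp).1 (hV p hp) (pow_pos R0 2).ne'
      (by rw [hr, Nat.cast_mul]; exact Ideal.mul_mem_right _ _ (hP p hp).2)
      (hD c c0 co Y hY g σ τ τ' h1 h2 h3) a1 b1 (val τ' α β a2 b2).1
      (by simpa using (val τ' α β a2 b2).2)
    exact ⟨this.1, this.2 ▸ a2⟩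
  obtain ⟨σ, h1⟩ := ex_ex g
  obtain ⟨τ, h2⟩ := (hG K j q _ c _ M0 c0 ((Nat.Coprime.coprime_mul_right_right co).mul_right
    ((Nat.Coprime.coprime_mul_left_right co).pow_right 2)) sp.cn).1
  obtain ⟨τ', h3⟩ := (cj0 σ _ M0).1 τ
  exact ⟨(key σ τ τ' h1 h2 h3).1, fun σ τ τ' h1 h2 h3 => (key σ τ τ' h1 h2 h3).2⟩

end Vale.Agent.P004F.Qx
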