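import Vale.Agent.P004F.Qx.Fg
import Vale.Agent.P022.H916.Fld

/-! # P004F, block QEXP: `p` is a uniformiser of the inertia field (row UNV) -/

set_option autoImplicit false
set_option linter.all false

open NumberField IsDedekindDomain
open scoped Classical

noncomputable section

namespace Vale.Agent.P004F.Qx

open Vale.Agent.P022 P004K H916

namespace Fg

variable {P : Ideal (𝓞 Qb)} {O : ValuationSubring Qb} {p : ℕ}

theorem int_mem (hP : P.IsPrime) (hp : p.Prime) (h : (p : 𝓞 Qb) ∈ P) (n : ℤ) :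
    (n : 𝓞 Qb) ∈ P ↔ (p : ℤ) ∣ n := by
  refine ⟨fun k => by_contra fun d => ?_, ?_⟩
  · obtain ⟨a, b, e⟩ := ((Nat.prime_iff_prime_int.1 hp).irreducible.coprime_iff_not_dvd.2 d).intCast
      (R := 𝓞 Qb)
    exact hP.one_notMem (e ▸ P.add_mem (P.mul_mem_left a (by simpa using h)) (P.mul_mem_left b k))
  · rintro ⟨m, rfl⟩
    simpa using P.mul_mem_right (m : 𝓞 Qb) h

theorem ne_bot (hp : p ≠ 0) (h : (p : 𝓞 Qb) ∈ P) : P ≠ ⊥ := fun e =>
  hp (Nat.cast_eq_zero.1 (Ideal.mem_bot.1 (e ▸ h)))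

/-- the inertia group -/
def inr (P : Ideal (𝓞 Qb)) : Subgroup GQ := P.toAddSubgroup.inertia GQ

/-- `π` has the largest valuation `< 1` in the fixed field of `U` -/
def Mx (O : ValuationSubring Qb) (U : Subgroup GQ) (π : Qb) : Prop :=
  (∀ g ∈ U, g π = π) ∧ O.valuation π < 1 ∧
    ∀ a : Qb, (∀ g ∈ U, g a = a) → O.valuation a < 1 → O.valuation a ≤ O.valuation π

variable {L : Type} [Field L] [NumberField L]

/-- the prime of `L` below `P` -/
def bel (j : L →+* Qb) (hP : P.IsPrime) (hp : p ≠ 0) (h : (p : 𝓞 Qb) ∈ P) :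
    HeightOneSpectrum (𝓞 L) :=
  ⟨below j P, Ideal.IsPrime.comap _, fun h0 => by
    have h1 : (p : 𝓞 L) ∈ below j P := by
      show RingOfIntegers.mapRingHom j (p : 𝓞 L) ∈ P
      rwa [map_natCast]
    rw [h0, Ideal.mem_bot] at h1
    exact hp (Nat.cast_eq_zero.1 h1)⟩

/-- the valuation of `O` restricts to the adic valuation -/
theorem dict (j : L →+* Qb) (hO : Vr P O) (v : HeightOneSpectrum (𝓞 L))
    (hv : v.asIdeal = below j P) : (O.valuation.comap j).IsEquiv (v.valuation L) := by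
  have key : ∀ x : L, v.valuation L x ≤ 1 → O.valuation (j x) ≤ 1 ∧
      (v.valuation L x < 1 → O.valuation (j x) < 1) := by
    intro x hx
    obtain ⟨n, ⟨d, hd⟩, h⟩ := v.exists_primeCompl_mul_eq_of_integer x hx
    have h1 := congrArg j h
    rw [map_mul, mul_comm] at h1
    have hd' : d ∉ below j P := hv ▸ hd
    refine ⟨(hO.ip _).1 ⟨_, RingOfIntegers.mapRingHom j n, hd', h1⟩, fun k =>
      (hO.zp _).1 ⟨_, RingOfIntegers.mapRingHom j n, hd', (?_ : n ∈ below j P), h1⟩⟩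
    rw [← hv, ← v.valuation_lt_one_iff_mem (K := L)]
    change v.valuation L (algebraMap _ _ n) < 1
    rw [← h, map_mul]
    exact mul_lt_one_of_lt_of_le k (v.valuation_le_one d)
  refine Valuation.isEquiv_iff_val_le_one.2 fun {x} => ⟨fun h => not_lt.1 fun k => ?_,
    fun h => (key x h).1⟩
  have h2 : v.valuation L x⁻¹ < 1 := by
    rw [map_inv₀]
    exact inv_lt_one_of_one_lt₀ k
  have h7 := (key _ h2.le).2 h2
  have hx : x ≠ 0 := by
    rintro rfl
    simp at k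
  rw [map_inv₀, map_inv₀, inv_lt_one₀ (zero_lt_iff.2 (by simpa using hx))] at h7
  exact h7.not_ge h

theorem mx (j : L →+* Qb) {v : HeightOneSpectrum (𝓞 L)}
    (he : (O.valuation.comap j).IsEquiv (v.valuation L)) {y : L}
    (h : v.valuation L y = WithZero.exp (-1 : ℤ)) : Mx O (GK j) (j y) := by
  refine ⟨fun g hg => hg y, he.lt_one_iff_lt_one.2 ?_, fun a ha k => ?_⟩
  · rw [h, ← WithZero.exp_zero, WithZero.exp_lt_exp]
    norm_num
  obtain ⟨x, rfl⟩ := fixed j (x := a) fun g => ha g g.2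
  refine (he x y).2 ?_
  have k := he.lt_one_iff_lt_one.1 k
  by_cases x0 : v.valuation L x = 0
  · exact x0.le.trans zero_le'
  rw [← WithZero.exp_log x0, ← WithZero.exp_zero, WithZero.exp_lt_exp] at k
  rw [h, ← WithZero.exp_log x0, WithZero.exp_le_exp]
  omega

theorem card_in {K : Type} [Field K] [Algebra K L] {j : K →+* Qb} {jL : L →+* Qb}
    {ρ : GK j →* (L ≃ₐ[K] L)} (D : Dict j jL ρ) (hP : P.IsPrime) :
    Nat.card ((below jL P).inertia (L ≃ₐ[K] L)) = (GK jL).relIndex (inr P ⊓ GK j) := by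
  let φ : (inr P ⊓ GK j : Subgroup GQ) →* (L ≃ₐ[K] L) := ρ.comp (Subgroup.inclusion inf_le_right)
  have h1 : φ.ker = (GK jL).subgroupOf (inr P ⊓ GK j) := by
    ext g
    exact D.ker _
  have h2 : φ.range = (below jL P).inertia (L ≃ₐ[K] L) := by
    ext τ
    constructor
    · rintro ⟨g, rfl⟩
      exact D.inertia_push (g := Subgroup.inclusion inf_le_right g) g.2.1
    · intro h
      obtain ⟨g, h3, h4⟩ := D.inertia_lift hP (τ := τ) h
      exact ⟨⟨g, h4, g.2⟩, h3⟩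
  rw [Subgroup.relIndex, ← h1, Subgroup.index_ker, h2]

/-- the ramification index is the order of the inertia group -/
theorem ram {K : Type} [Field K] [NumberField K] (j : K →+* Qb) (hP : P.IsPrime) (hp : p ≠ 0)
    (h : (p : 𝓞 Qb) ∈ P) (hO : Vr P O) {U : Subgroup GQ} (hU : IsOpen (U : Set GQ))
    (hN : U.Normal) (le : U ≤ GK j) : ∃ ϖ π, Mx O (GK j) ϖ ∧ Mx O U π ∧
      O.valuation ϖ = O.valuation π ^ U.relIndex (inr P ⊓ GK j) := by
  obtain ⟨L, _, _, _, _, jL, ρ, D, rfl, -⟩ := exists_fld j U hU le fun g _ u hu =>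
    hN.conj_mem u hu g
  let v := bel j hP hp h
  let w := bel jL hP hp h
  have hw := dict jL hO w rfl
  obtain ⟨x, hx⟩ := v.valuation_exists_uniformizer K
  obtain ⟨y, hy⟩ := w.valuation_exists_uniformizer L
  refine ⟨_, _, mx j (dict j hO v rfl) hx, mx jL hw hy, ?_⟩
  have hl : w.asIdeal.LiesOver v.asIdeal := ⟨(D.below_comap P).symm⟩
  have h1 := Ideal.card_inertia_eq_ramificationIdxIn (G := L ≃ₐ[K] L) v.asIdeal w.asIdeal
  rw [Ideal.ramificationIdxIn_eq_ramificationIdx v.asIdeal w.asIdeal (L ≃ₐ[K] L),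
    ← Ideal.ramificationIdx'_eq_ramificationIdx _ _ v.ne_bot] at h1
  have h4 := HeightOneSpectrum.valuation_liesOver L v w x
  rw [← h1, hx, ← hy, ← map_pow, eq_comm, ← hw.eq_iff, Valuation.comap_apply,
    Valuation.comap_apply, D.comp, map_pow, map_pow] at h4
  rw [h4, ← card_in D hP]
  rfl

theorem GK_val {V : Subgroup GQ} (hV : IsOpen (V : Set GQ)) :
    GK (IntermediateField.fixedField V).val.toRingHom = V := by
  have hfix : (IntermediateField.fixedField V).fixingSubgroup = V :=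
    InfiniteGalois.fixingSubgroup_fixedField ⟨V, OpenSubgroup.isClosed ⟨V, hV⟩⟩
  ext g
  refine ⟨fun h => ?_, fun h x => (IntermediateField.mem_fixedField_iff _ _).1 x.2 _ h⟩
  rw [← hfix, IntermediateField.mem_fixingSubgroup_iff]
  exact fun x hx => h (⟨x, hx⟩ : FF V)

theorem rat_le (hP : P.IsPrime) (hp : p.Prime) (h : (p : 𝓞 Qb) ∈ P) (hO : Vr P O) {q : ℚ}
    (k : O.valuation (q : Qb) < 1) : O.valuation (q : Qb) ≤ O.valuation p := by
  have i : ∀ n : ℤ, O.valuation (n : Qb) < 1 ↔ (p : ℤ) ∣ n := fun n => by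
    rw [← int_mem hP hp h, ← hO.mem hP]
    rfl
  have e : (q : Qb) * (q.den : ℤ) = q.num := by exact_mod_cast q.mul_den_eq_num
  have h1 : (p : ℤ) ∣ q.num := by
    rw [← i, ← e, map_mul]
    exact mul_lt_one_of_lt_of_le k (vi _)
  have h2 : O.valuation ((q.den : ℤ) : Qb) = 1 := le_antisymm (vi _) (not_lt.1 fun d =>
    hp.one_lt.ne' (Nat.eq_one_of_dvd_coprimes q.reduced (Int.natCast_dvd.1 h1)
      (Int.natCast_dvd_natCast.1 ((i _).1 d))))
  obtain ⟨m, hm⟩ := h1
  rw [← mul_one (O.valuation (q : Qb)), ← h2, ← map_mul, e, hm]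
  simpa using P179W.val_mul_le (le_refl (O.valuation p)) (vi m)

end Fg

open Fg in
/-- row UNV -/
theorem unv : UNV := by
  intro p P hp hP h a ha hz
  obtain ⟨O, hO⟩ := ex_O hP (ne_bot hp.ne_zero h)
  have hV : IsOpen (MulAction.stabilizer GQ a : Set GQ) := stabilizer_isOpen_of_isIntegral a
  obtain ⟨U, hU⟩ := ProfiniteGrp.exist_openNormalSubgroup_sub_open_nhds_of_one hV
    (MulAction.stabilizer GQ a).one_mem
  have hfin := finU _ hV
  have hNF : NumberField (FF (MulAction.stabilizer GQ a)) :=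
    { to_charZero := inferInstance, to_finiteDimensional := hfin }
  obtain ⟨j, hj⟩ : ∃ j : FF (MulAction.stabilizer GQ a) →+* Qb,
    GK j = MulAction.stabilizer GQ a := ⟨_, GK_val hV⟩
  have h0 : GK (algebraMap ℚ Qb) = ⊤ := eq_top_iff.2 fun g _ => g.commutes
  obtain ⟨ϖ, π, a1, a2, a3⟩ := ram j hP hp.ne_zero h hO U.isOpen U.isNormal' (hj.symm ▸ hU)
  obtain ⟨ϖ', π', b1, b2, b3⟩ := ram (algebraMap ℚ Qb) hP hp.ne_zero h hO U.isOpen U.isNormal'
    (h0.symm ▸ le_top)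
  have h5 : inr P ≤ GK j := fun g hg => hj.symm ▸ ha g hg
  rw [inf_eq_left.2 h5, le_antisymm (b2.2.2 π a2.1 a2.2.1) (a2.2.2 π' b2.1 b2.2.1)] at a3
  rw [h0, inf_top_eq, ← a3] at b3
  obtain ⟨q, rfl⟩ := fixed (algebraMap ℚ Qb) (x := ϖ') fun g => b1.1 g g.2
  rw [hO.ip, map_div₀, div_le_one₀ (zero_lt_iff.2 (by simpa using hp.ne_zero))]
  exact ((a1.2.2 a (fun g hg => (hj ▸ hg : g ∈ MulAction.stabilizer GQ a)) ((hO.zp a).1 hz)).trans
    b3.ge).trans (rat_le hP hp h hO b1.2.1)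

end Vale.Agent.P004F.Qx
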