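import Vale.Agent.P004F.Qx.Unv

/-! # P004F, block QEXP: the unramified points of the formal group at two (row FR) -/

set_option autoImplicit false
set_option linter.all false

open NumberField Polynomial Finset
open scoped Classical

noncomputable section

namespace Vale.Agent.P004F.Qx

open Vale.Agent.P022 P004K
open P004M.TE (Pt ga)

namespace Fg

section abs

variable {G k : Type} [AddCommGroup G] [AddCommGroup k] (c : G →+ k) (E : ℕ → G) (f : ℕ)
  (h2 : ∀ y, c (2 • y) = 0) (ht : ∀ y : G, 2 • y = 0 → y = 0)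
include h2 ht

theorem abs1 (hi : ∀ n : ℕ → ℤ, c (∑ i ∈ range f, n i • E i) = 0 → ∀ i < f, 2 ∣ n i) (m : ℕ) :
    ∀ (n : ℕ → ℤ) (w : G), ∑ i ∈ range f, n i • E i = 2 ^ m • w → ∀ i < f, 2 ^ m ∣ n i := by
  induction m with
  | zero => simp
  | succ m ih =>
    intro n w h i hf
    rw [pow_succ', mul_nsmul'] at h
    have a := hi n (h ▸ h2 _)
    have e : ∑ i ∈ range f, n i • E i = 2 • ∑ i ∈ range f, (n i / 2) • E i := by
      rw [smul_sum]
      refine sum_congr rfl fun i hi => ?_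
      rw [← natCast_zsmul, smul_smul, Nat.cast_ofNat, Int.mul_ediv_cancel' (a i (mem_range.1 hi))]
    rw [← Int.mul_ediv_cancel' (a i hf), pow_succ']
    exact mul_dvd_mul_left 2 (ih (fun i => n i / 2) w (sub_eq_zero.1 (ht _ (by
      rw [nsmul_sub, ← e, h, sub_self]))) i hf)

theorem abs2 (U : AddSubgroup G) (F : G →+ G) (hE : ∀ i, E i ∈ U ∧ F (E i) = E i)
    (hh : ∀ y ∈ U, c y = 0 → ∃ w ∈ U, 2 • w = y)
    (hs : ∀ y, c (F y) = c y → ∃ n : ℕ → ℤ, c y = c (∑ i ∈ range f, n i • E i)) (m : ℕ) :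
    ∀ y ∈ U, ∀ v, F y - y = 2 ^ m • v →
      ∃ n : ℕ → ℤ, ∃ w ∈ U, y = ∑ i ∈ range f, n i • E i + 2 ^ m • w := by
  induction m with
  | zero => exact fun y hy _ _ => ⟨0, y, hy, by simp⟩
  | succ m ih =>
    intro y hy v h
    rw [pow_succ', mul_nsmul'] at h
    obtain ⟨n, hn⟩ := hs y (by rw [← sub_eq_zero, ← map_sub, h, h2])
    obtain ⟨w, hw, e⟩ := hh _ (U.sub_mem hy (U.sum_mem fun i _ => U.zsmul_mem (hE i).1 (n i)))
      (by rw [map_sub, hn, sub_self])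
    obtain ⟨n', w', hw', e'⟩ := ih w hw v (sub_eq_zero.1 (ht _ (by
      rw [nsmul_sub, nsmul_sub, ← map_nsmul, e, ← h, map_sub, map_sum]
      simp [fun i => (hE i).2])))
    refine ⟨n + 2 • n', w', hw', ?_⟩
    rw [eq_add_of_sub_eq e.symm, e', pow_succ', mul_nsmul', nsmul_add, smul_sum]
    simp only [Pi.add_apply, Pi.smul_apply, add_smul, sum_add_distrib, smul_assoc]
    abel

end abs

theorem lift_root {R S : Type} [CommRing R] [IsDomain R] [Field S] (ρ : R →+* S) {q : ℕ}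
    (hq : 1 < q) (hs : Splits (X ^ q - X : R[X])) {t : S} (ht : t ^ q = t) :
    ∃ a : R, a ^ q = a ∧ ρ a = t := by
  have e : (X ^ q - X : R[X]).map ρ = X ^ q - X := by simp
  have h0 : (X ^ q - X : S[X]) ≠ 0 := FiniteField.X_pow_card_sub_X_ne_zero S hq
  have h := hs.roots_map_of_ne_zero (e ▸ h0)
  obtain ⟨a, h1, h2⟩ := Multiset.mem_map.1 (h ▸ (mem_roots (e ▸ h0)).2 (by simp [ht]) :
    t ∈ (X ^ q - X : R[X]).roots.map ρ)
  exact ⟨a, by simpa [sub_eq_zero] using isRoot_of_mem_roots h1, h2⟩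

/-- normal bases -/
theorem nb {f : ℕ} (hf : 0 < f) (k : Type) [Field k] [IsAlgClosed k] [CharP k 2] : ∃ β : k,
    β ^ 2 ^ f = β ∧ (∀ n : ℕ → ℤ, ∑ i ∈ range f, n i * β ^ 2 ^ i = 0 → ∀ i < f, 2 ∣ n i) ∧
    ∀ t : k, t ^ 2 ^ f = t → ∃ n : ℕ → ℤ, t = ∑ i ∈ range f, n i * β ^ 2 ^ i := by
  let _ : Algebra (ZMod 2) k := ZMod.algebra k 2
  have hr := GaloisField.finrank 2 hf.ne'
  have hc := GaloisField.card 2 f hf.ne'
  have _ := Fintype.ofFinite (GaloisField 2 f)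
  rw [Nat.card_eq_fintype_card] at hc
  let ι : GaloisField 2 f →ₐ[ZMod 2] k := IsAlgClosed.lift
  let b := (IsGalois.normalBasis (ZMod 2) (GaloisField 2 f)).reindex ((Equiv.ofBijective _
    (FiniteField.bijective_frobeniusAlgEquivOfAlgebraic_pow (ZMod 2) (GaloisField 2 f))).symm.trans
      (finCongr hr))
  obtain ⟨β, hb⟩ : ∃ β, ∀ i : Fin f, b i = β ^ 2 ^ i.1 := ⟨_, fun i => by
    simp only [b, Module.Basis.reindex_apply]
    rw [IsGalois.normalBasis_apply]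
    simp [AlgEquiv.coe_pow, FiniteField.coe_frobeniusAlgEquivOfAlgebraic_iterate]
    rfl⟩
  have s : ∀ n : ℕ → ℤ, ∑ i ∈ range f, n i * ι β ^ 2 ^ i =
      ι (∑ i : Fin f, (n i : ZMod 2) • b i) := fun n => by
    simp only [map_sum, hb, Int.cast_smul_eq_zsmul, zsmul_eq_mul, map_mul, map_intCast, map_pow]
    exact (Fin.sum_univ_eq_sum_range (fun i => n i * ι β ^ 2 ^ i) f).symm
  refine ⟨ι β, by rw [← map_pow, ← hc, FiniteField.pow_card], fun n h i hi => ?_, fun t ht => ?_⟩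
  · rw [s, map_eq_zero] at h
    exact (ZMod.intCast_zmod_eq_zero_iff_dvd _ 2).1
      (Fintype.linearIndependent_iff.1 b.linearIndependent _ h ⟨i, hi⟩)
  · obtain ⟨a, -, rfl⟩ := lift_root (ι : GaloisField 2 f →+* k) (Nat.one_lt_two_pow hf.ne')
      (by simpa [hc] using FiniteField.splits_X_pow_card_sub_X 2 (K := GaloisField 2 f)) ht
    refine ⟨fun i => if h : i < f then (b.repr a ⟨i, h⟩).cast else 0, ?_⟩
    rw [s]
    simp

variable {P : Ideal (𝓞 Qb)}

theorem frob (hP : P.IsPrime) {g : GQ} {e : ℕ} (h4 : ∀ x : 𝓞 Qb, g • x - x ^ e ∈ P) {x : Qb} :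
    Ip P x → Zp P (g x - x ^ e) := by
  rintro ⟨s, t, h2, h3⟩
  have h6 : s ^ e ∉ P := fun h6 => h2 (hP.mem_of_pow_mem e h6)
  have h5 : g • s ∉ P := fun h7 => h6 (by simpa using P.sub_mem h7 (h4 s))
  refine ⟨s ^ e * g • s, s ^ e * (g • t - t ^ e) - t ^ e * (g • s - s ^ e),
    fun h7 => (hP.mem_or_mem h7).elim h6 h5,
    P.sub_mem (P.mul_mem_left _ (h4 t)) (P.mul_mem_left _ (h4 s)), ?_⟩
  have h7 := congrArg g h3
  rw [map_mul] at h7
  change (s : Qb) ^ e * g s * (g x - x ^ e) = s ^ e * (g t - t ^ e) - t ^ e * (g s - s ^ e)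
  rw [← h7, ← h3]
  ring

theorem frob_pow {g : GQ} {e : ℕ} (h : ∀ x : 𝓞 Qb, g • x - x ^ e ∈ P) (i : ℕ) (x : 𝓞 Qb) :
    g ^ i • x - x ^ e ^ i ∈ P := by
  simp only [← Ideal.Quotient.eq] at h ⊢
  induction i with
  | zero => simp
  | succ i ih => rw [pow_succ', mul_smul, h, map_pow, ih, ← map_pow, ← pow_mul, pow_succ]

theorem teich {Γ : Type} [LinearOrderedCommGroupWithZero Γ] {v : Valuation Qb Γ} (h2 : v 2 < 1)
    {f : ℕ} (hf : 0 < f) {a b : Qb} (ha : a ^ 2 ^ f = a) (hb : b ^ 2 ^ f = b) (k : v b ≤ 1)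
    (h : v (a - b) < 1) : a = b := by
  have s : ∀ i, v (a ^ 2 ^ (i + 1) - b ^ 2 ^ (i + 1)) ≤ v (a - b) * v (a + b) := fun i => by
    have k' : v a ≤ 1 := sub_add_cancel a b ▸ v.map_add_le h.le k
    induction i with
    | zero => rw [← map_mul]; exact (congrArg v (by ring)).le
    | succ i ih =>
      rw [pow_succ 2 (i + 1), pow_mul, pow_mul, sq_sub_sq, map_mul]
      exact (mul_le_of_le_one_left' (v.map_add_le (P179W.val_pow_le_one k' _)
        (P179W.val_pow_le_one k _))).trans ih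
  by_contra ne
  have := s (f - 1)
  rw [Nat.sub_add_cancel hf, ha, hb] at this
  refine this.not_gt (mul_lt_of_lt_one_right (zero_lt_iff.2 (by simpa [sub_eq_zero] using ne)) ?_)
  rw [show a + b = a - b + 2 * b by ring]
  exact v.map_add_lt h (by rw [map_mul]; exact mul_lt_one_of_lt_of_le h2 k)

end Fg

open Fg in
/-- row FR -/
theorem fr : FR := by
  intro A B hD P hP h2 κ hκ d2 φ hφ f hf
  have h0 := ne_bot two_ne_zero (by exact_mod_cast h2 : ((2 : ℕ) : 𝓞 Qb) ∈ P)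
  obtain ⟨O, hO⟩ := ex_O hP h0
  obtain ⟨-, -, -, -, bij, fk⟩ := fg A B hD P hP h0
  obtain ⟨sub, -, dbl⟩ := fk κ hκ
  replace dbl := dbl d2
  have κ0 : (κ : Qb) ≠ 0 := Nat.cast_ne_zero.2 hκ
  have v2 : O.valuation 2 < 1 := (hO.mem hP 2).2 h2
  have io : ∀ {a}, Ip P a ↔ a ∈ O := fun {a} => (hO.ip a).trans (O.valuation_le_one_iff a)
  let k := AlgebraicClosure (IsLocalRing.ResidueField O)
  let ρ : O →+* k := (algebraMap _ k).comp (IsLocalRing.residue O)
  have hρ : ∀ a b : O, ρ a = ρ b ↔ Zp P (a - b) := fun a b => by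
    rw [← sub_eq_zero, ← map_sub, RingHom.comp_apply, map_eq_zero, IsLocalRing.residue_eq_zero_iff,
      ValuationSubring.valuation_lt_one_iff, hO.zp]
    rfl
  have c2 : (2 : k) = 0 := by
    simpa [map_ofNat] using (hρ 2 0).2
      ((hO.zp _).2 (by rw [ZeroMemClass.coe_zero, sub_zero]; exact v2))
  have : CharP k 2 := (CharP.charP_iff_prime_eq_zero Nat.prime_two).2 c2
  obtain ⟨β, b1, b2, b3⟩ := nb hf k
  obtain ⟨θ, t1, rfl⟩ := lift_root ρ (Nat.one_lt_two_pow hf.ne') (Splits.of_splits_map_of_injective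
    (i := O.subtype) Subtype.val_injective (IsAlgClosed.splits _) fun a ha => by
      have e : a ^ 2 ^ f = a := by simpa [sub_eq_zero] using isRoot_of_mem_roots ha
      refine ⟨⟨a, (O.valuation_le_one_iff a).1 (not_lt.1 fun h => ?_)⟩, rfl⟩
      have := pow_lt_pow_right₀ h (Nat.one_lt_two_pow hf.ne')
      rw [← map_pow, ← map_pow, e, pow_one] at this
      exact this.false) b1
  have t2 : (θ : Qb) ^ 2 ^ f = θ := congrArg Subtype.val t1
  have tg : ∀ (g : GQ) (e : ℕ), (∀ x : 𝓞 Qb, g • x - x ^ e ∈ P) → g θ = θ ^ e := fun g e h =>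
    teich v2 hf (by rw [← map_pow, t2]) (by rw [← pow_mul, mul_comm, pow_mul, t2])
      (P179W.val_pow_le_one (O.valuation_le_one θ) e) ((hO.zp _).1 (frob hP h (io.2 θ.2)))
  have tφ := fun i => tg _ _ (frob_pow hφ i)
  have dφ := (Dc.of hP two_ne_zero hφ).pow
  have dI : ∀ {g : GQ}, (∀ x : 𝓞 Qb, g • x - x ∈ P) → Dc P g := fun h =>
    Dc.of hP one_ne_zero (by simpa using h)
  have fix : ∀ {g : GQ} {y : Pt A B}, Dc P g → K1 P y → g (zf y) = zf y → ga g y = y :=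
    fun a b e => inj ((hO.k1 _).1 (a.k1 b)) ((hO.k1 _).1 b) ((zf_ga _ _).trans e)
  obtain ⟨e, ⟨e1, e2⟩, -⟩ := bij (κ * θ) ((hO.zp _).2 (by
    obtain ⟨m, rfl⟩ := d2
    rw [Nat.cast_mul, map_mul, map_mul, mul_assoc]
    exact mul_lt_one_of_lt_of_le v2 (mul_le_one' (vn m) (O.valuation_le_one θ))))
  have e3 : zf e / κ = θ := by rw [e2, mul_div_cancel_left₀ _ κ0]
  have e4 : Fk P κ e := ⟨e1, e3 ▸ io.2 θ.2⟩
  have e5 : ∀ i, zf (ga (φ ^ i) e) = κ * θ ^ 2 ^ i := fun i => by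
    rw [zf_ga, e2, map_mul, map_natCast, tφ]
  let G : AddSubgroup (Pt A B) := .ofSub {y | Fk P κ y} ⟨e, e4⟩ fun x a y b =>
    sub_eq_add_neg x y ▸ (sub x y a b).1
  let c : G →+ k := .ofMapSub (fun y => ρ ⟨zf y.1 / κ, io.1 y.2.2⟩) fun x y => by
    rw [← map_sub, hρ]
    exact (sub _ _ x.2 y.2).2
  have hc : ∀ y : G, c y = ρ ⟨zf y.1 / κ, io.1 y.2.2⟩ := fun _ => rfl
  let E : ℕ → G := fun i => ⟨ga (φ ^ i) e, (dφ i).fk e4⟩
  let U : AddSubgroup G := .ofSub {y | Ur P y.1} ⟨0, fun g _ => map_zero _⟩ fun x a y b g h => by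
    rw [← sub_eq_add_neg, AddSubgroup.coe_sub, map_sub, a g h, b g h]
  let F : G →+ G := ((ga (φ ^ f)).comp G.subtype).codRestrict G fun y => (dφ f).fk y.2
  have hS : ∀ n : ℕ → ℤ, c (∑ i ∈ range f, n i • E i) = ∑ i ∈ range f, n i * ρ θ ^ 2 ^ i :=
    fun n => by
      rw [map_sum]
      refine sum_congr rfl fun i _ => ?_
      rw [map_zsmul, zsmul_eq_mul, ← map_pow, hc]
      congr 2
      exact Subtype.ext ((congrArg (· / (κ : Qb)) (e5 i)).trans (mul_div_cancel_left₀ _ κ0))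
  have h2c : ∀ y, c (2 • y) = 0 := fun y => by rw [map_nsmul, two_nsmul, ← two_mul, c2, zero_mul]
  have ht : ∀ y : G, 2 • y = 0 → y = 0 := fun y h =>
    Subtype.ext (((dbl y).1 y.2).2 (congrArg Subtype.val h))
  have hE : ∀ i, E i ∈ U ∧ F (E i) = E i := fun i =>
    ⟨fun g h => fix (dI h) (E i).2.1 (by
      simp only [E, e5, map_mul, map_natCast, map_pow, tg g 1 (by simpa using h), pow_one]),
    Subtype.ext (fix (dφ f) (E i).2.1 (by
      simp only [E, AddSubgroup.subtype_apply, e5, map_mul, map_natCast, map_pow, tφ, t2]))⟩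
  have cv : ∀ n : ℕ → ℤ, ((∑ i ∈ range f, n i • E i : G) : Pt A B) =
      ∑ i ∈ range f, n i • ga (φ ^ i) e := fun n => map_sum G.subtype _ _
  refine ⟨e, e4, fun g h => fix (dI h) e1 (by
      rw [e2, map_mul, map_natCast, tg g 1 (by simpa using h), pow_one]),
    fix (dφ f) e1 (by rw [e2, map_mul, map_natCast, tφ, t2]), fun h => ?_, fun m n w hw h => ?_,
    fun m y v hy hu hv h => ?_⟩
  · have := (hρ (∑ i ∈ range f, θ ^ 2 ^ i) 0).2 (by simpa [e3, tφ] using h)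
    exact absurd (b2 1 (by simpa using this) 0 hf) (by norm_num)
  · exact abs1 c E f h2c ht (fun n h => b2 n (hS n ▸ h)) m n ⟨w, hw⟩ (Subtype.ext ((cv n).trans h))
  obtain ⟨n, w, hw, e⟩ := abs2 c E f h2c ht U F hE (fun y hy h => by
      obtain ⟨w, a, b, -⟩ := (dbl y).2 ⟨y.2.1, by
        rw [Nat.cast_mul, mul_comm, ← div_div]
        refine unv 2 P Nat.prime_two hP (by exact_mod_cast h2) _ (fun g hg => ?_) ?_
        · rw [map_div₀, map_natCast, ← zf_ga, hy g hg]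
        · simpa using (hρ _ 0).1 (h.trans (map_zero ρ).symm)⟩
      refine ⟨⟨w, a⟩, fun g hg => ?_, Subtype.ext b⟩
      refine sub_eq_zero.1 (((dbl _).1 (sub _ _ ((dI hg).fk a) a).1).2 ?_)
      rw [nsmul_sub, ← map_nsmul, b, hy g hg, sub_self])
    (fun y h => by
      simp only [hS]
      refine b3 _ (Eq.trans ?_ h)
      rw [hc, hc, ← map_pow, eq_comm, hρ]
      have := frob hP (frob_pow hφ f) y.2.2
      rwa [map_div₀, map_natCast, ← zf_ga] at this) m ⟨y, hy⟩ hu ⟨v, hv⟩ (Subtype.ext h)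
  refine ⟨n, w, w.2, hw, (congrArg Subtype.val e).trans (congrArg (· + _) (cv n)), fun hm => ?_⟩
  have := congrArg c e
  rw [map_add, hS, ← Nat.sub_add_cancel hm, pow_succ', mul_nsmul', h2c, add_zero, hc] at this
  have := (hρ _ (∑ i ∈ range f, n i * θ ^ 2 ^ i)).1 (this.trans (by simp))
  rw [AddSubmonoidClass.coe_finsetSum] at this
  simp only [e3, tφ]
  exact this

end Vale.Agent.P004F.Qx
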