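import Vale.Agent.P004F.Qx.St

/-! # P004F, block QEXP: the formal group without power series (row FG) -/

set_option autoImplicit false
set_option linter.all false

open NumberField Polynomial WeierstrassCurve.Affine
open scoped Classical

noncomputable section

namespace Vale.Agent.P004F.Qx

open Vale.Agent.P022 P004K P004H.H666 P179W
open P004M.TE (Pt ga Cv)

namespace Fg

section val

variable {Γ : Type} [LinearOrderedCommGroupWithZero Γ] {v : Valuation Qb Γ} {A B : ℤ}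

/-- the second coordinate `-1 / y` -/
def wf : Pt A B → Qb
  | .zero => 0
  | .some _ y _ => -1 / y

theorem vi (n : ℤ) : v n ≤ 1 := by
  induction n using Int.induction_on with
  | zero => simp
  | succ n h => push_cast; exact v.map_add_le (by simpa using h) (by simp)
  | pred n h => push_cast; exact v.map_sub_le (by simpa using h) (by simp)

theorem vn (n : ℕ) : v n ≤ 1 := by simpa using vi (v := v) n

theorem eA (A : ℤ) : algebraMap ℚ Qb (A : ℚ) = A := map_intCast _ A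

theorem eq' {x y : Qb} (h : (Cv Qb (A : ℚ) (B : ℚ)).Nonsingular x y) :
    y ^ 2 = x ^ 3 + A * x + B := by
  have := eqn h
  rwa [eA, eA] at this

theorem cf : CoeffIn (Cv Qb (A : ℚ) (B : ℚ)) {z | v z ≤ 1} :=
  have v0 : v (0 : Qb) ≤ 1 := by simp
  ⟨v0, v0, v0, (congrArg _ (eA A)).trans_le (vi A), (congrArg _ (eA B)).trans_le (vi B)⟩

theorem bas {x y : Qb} (h : (Cv Qb (A : ℚ) (B : ℚ)).Nonsingular x y) (hx : 1 < v x) :
    x ≠ 0 ∧ y ≠ 0 ∧ v x * v (-x / y) ^ 2 = 1 := by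
  have p : 0 < v x := zero_lt_one.trans hx
  have e : v y ^ 2 = v x ^ 3 := by
    rw [← map_pow, ← map_pow, eq' h, add_assoc]
    refine v.map_add_eq_of_lt_left ?_
    rw [map_pow]
    refine lt_of_le_of_lt (b := v x ^ 1) ?_ (pow_lt_pow_right₀ hx (by norm_num))
    rw [pow_one]
    exact v.map_add_le (by simpa using val_mul_le (vi A) (le_refl (v x))) ((vi B).trans hx.le)
  have y0 : y ≠ 0 := by
    rintro rfl
    rw [map_zero, zero_pow two_ne_zero] at e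
    exact pow_ne_zero 3 p.ne' e.symm
  refine ⟨(map_ne_zero v).1 p.ne', y0, ?_⟩
  rw [map_div₀, Valuation.map_neg, div_pow, e]
  field_simp

theorem ker {Q : Pt A B} (h : KerV v Q) : v (zf Q) < 1 ∧ v (wf Q) ≤ v (zf Q) ∧
    wf Q = zf Q ^ 3 + A * zf Q * wf Q ^ 2 + B * wf Q ^ 3 ∧ (zf Q = 0 → Q = 0) := by
  rcases Q with _ | ⟨x, y, h'⟩
  · simp [zf, wf]
    rfl
  have hx : 1 < v x := not_le.1 h
  obtain ⟨x0, y0, e⟩ := bas h' hx
  refine ⟨?_, ?_, ?_, fun e => ?_⟩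
  · by_contra k
    exact (one_lt_mul_of_lt_of_le hx (one_le_pow₀ (not_lt.1 k))).ne' e
  · change v (-1 / y) ≤ v (-x / y)
    rw [map_div₀, map_div₀, Valuation.map_neg, Valuation.map_neg, map_one]
    exact div_le_div_of_nonneg_right hx.le zero_le'
  · change -1 / y = (-x / y) ^ 3 + A * (-x / y) * (-1 / y) ^ 2 + B * (-1 / y) ^ 3
    field_simp
    linear_combination -eq' h'
  · exact absurd e (div_ne_zero (neg_ne_zero.2 x0) y0)

theorem inj {Q R : Pt A B} (h : KerV v Q) (k : KerV v R) (e : zf Q = zf R) : Q = R := by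
  obtain ⟨a1, a2, a3, a4⟩ := ker h
  obtain ⟨b1, b2, b3, b4⟩ := ker k
  have hw : wf Q = wf R := by
    by_contra ne
    have c1 := a2.trans_lt a1
    have c2 := b2.trans_lt b1
    have e1 : (1 : Qb) = A * (zf R * (wf Q + wf R)) +
        B * (wf Q * wf Q + wf Q * wf R + wf R * wf R) := by
      rw [e] at a3
      refine mul_left_cancel₀ (sub_ne_zero.2 ne) ?_
      linear_combination a3 - b3
    have m : ∀ {a b : Qb}, v a ≤ 1 → v b < 1 → v (a * b) < 1 := fun ha hb => by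
      rw [map_mul]; exact mul_lt_one_of_nonneg_of_lt_one_right ha zero_le' hb
    have : v 1 < 1 := by
      rw [e1]
      exact v.map_add_lt (m (vi A) (m b1.le (v.map_add_lt c1 c2)))
        (m (vi B) (v.map_add_lt (v.map_add_lt (m c1.le c1) (m c1.le c2)) (m c2.le c2)))
    simp at this
  rcases Q with _ | ⟨x, y, h'⟩
  · exact (b4 e.symm).symm
  rcases R with _ | ⟨x', y', k'⟩
  · exact a4 e
  have y0 := (bas h' (not_le.1 h)).2.1
  have y1 := (bas k' (not_le.1 k)).2.1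
  change -1 / y = -1 / y' at hw
  change -x / y = -x' / y' at e
  obtain rfl : y = y' := by field_simp at hw; linear_combination hw
  obtain rfl : x = x' := by field_simp at e; linear_combination -e
  rfl

theorem zf_neg (Q : Pt A B) : zf (-Q) = -zf Q := by
  rcases Q with _ | ⟨x, y, h⟩
  · exact neg_zero.symm
  · rw [Point.neg_some]
    simp [zf, negY, div_neg]

theorem add3 {Q R : Pt A B} (h : KerV v Q) (k : KerV v R) {M : Γ} (h1 : v (zf Q) ≤ M)
    (h2 : v (zf R) ≤ M) (h3 : v (zf (Q + R)) ≤ M) : v (zf (Q + R) - (zf Q + zf R)) ≤ M ^ 3 := by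
  have hs := kerV_add cf h k
  rcases Q with _ | ⟨x₁, y₁, h₁⟩
  · change v (zf (0 + R) - (0 + zf R)) ≤ _
    simp
  rcases R with _ | ⟨x₂, y₂, h₂⟩
  · change v (zf (_ + 0) - (_ + 0)) ≤ _
    simp
  by_cases hxy : x₁ = x₂ ∧ y₁ = (Cv Qb (A : ℚ) (B : ℚ)).negY x₂ y₂
  · rw [Point.add_of_Y_eq hxy.1 hxy.2]
    obtain ⟨rfl, rfl⟩ := hxy
    change v (0 - (-x₁ / _ + -x₁ / _)) ≤ _
    simp [negY, div_neg]
  have w1 := (ker h).2.1.trans h1
  have w2 := (ker k).2.1.trans h2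
  have w3 := (ker hs).2.1.trans h3
  rw [Point.add_some hxy] at hs h3 w3 ⊢
  have y1 := (bas h₁ (not_le.1 h)).2.1
  have y2 := (bas h₂ (not_le.1 k)).2.1
  have y3 := (bas (nonsingular_add h₁ h₂ hxy) (not_le.1 hs)).2.1
  obtain ⟨l, n, x₃, hl, hx₃, e₁, e₂, e₃, s1, s2, s3⟩ := line_rel h₁.1 h₂.1 hxy
  have e4 : (Cv Qb (A : ℚ) (B : ℚ)).addY x₁ x₂ y₁ l = -(l * x₃ + n) := by
    rw [addY, e₃]; simp [negY]
  simp only [zf, wf, ← hl, ← hx₃, e4] at y3 h1 h2 h3 w1 w2 w3 ⊢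
  simp only [eA, zero_mul, add_zero, sub_zero] at s1 s2 s3
  generalize hy : -(l * x₃ + n) = y₃ at y3 h3 w3
  have t : ∀ {a b c : Qb}, v a ≤ M → v b ≤ M → v c ≤ M → v (a * b * c) ≤ M ^ 3 := fun ha hb hc => by
    rw [pow_succ, pow_two]; exact val_mul_le (val_mul_le ha hb) hc
  have m : ∀ (n : ℤ) {b : Qb}, v b ≤ M ^ 3 → v (n * b) ≤ M ^ 3 := fun n _ hb => by
    simpa using val_mul_le (vi n) hb
  have e : -x₃ / y₃ - (-x₁ / y₁ + -x₂ / y₂) =
      A * (A * (-1 / y₁ * (-1 / y₂) * (-1 / y₃)) - (-x₁ / y₁ * (-x₂ / y₂) * (-1 / y₃) +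
        -x₁ / y₁ * (-1 / y₂) * (-x₃ / y₃) + -1 / y₁ * (-x₂ / y₂) * (-x₃ / y₃))) -
      (3 * B : ℤ) * (-x₁ / y₁ * (-1 / y₂) * (-1 / y₃) + -1 / y₁ * (-x₂ / y₂) * (-1 / y₃) +
        -1 / y₁ * (-1 / y₂) * (-x₃ / y₃)) := by
    push_cast
    field_simp
    rw [← hy, e₁, e₂]
    linear_combination -(n ^ 2 + 3 * B) * s1 - (2 * l * n + A) * s2 - 3 * l ^ 2 * s3
  rw [e]
  exact v.map_sub_le (m A (v.map_sub_le (m A (t w1 w2 w3)) (v.map_add_le (v.map_add_le
    (t h1 h2 w3) (t h1 w2 h3)) (t w1 h2 h3)))) (m _ (v.map_add_le (v.map_add_le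
    (t h1 w2 w3) (t w1 h2 w3)) (t w1 w2 h3)))

/-- **the addition law** -/
theorem add_le {Q R : Pt A B} (h : KerV v Q) (k : KerV v R) {M : Γ} (h1 : v (zf Q) ≤ M)
    (h2 : v (zf R) ≤ M) : v (zf (Q + R)) ≤ M ∧ v (zf (Q + R) - (zf Q + zf R)) ≤ M ^ 3 := by
  refine (fun h3 => ⟨h3, add3 h k h1 h2 h3⟩) (not_lt.1 fun h3 => ?_)
  have h4 := add3 h k (h1.trans h3.le) (h2.trans h3.le) le_rfl
  rw [v.map_sub_eq_of_lt_left ((v.map_add_le h1 h2).trans_lt h3)] at h4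
  exact h4.not_gt (pow_lt_self_of_lt_one₀ (zero_le'.trans_lt h3) (ker (kerV_add cf h k)).1
    (by norm_num))

theorem tors {Q : Pt A B} (h : KerV v Q) (e : 2 • Q = 0) : Q = 0 := by
  rcases Q with _ | ⟨x, y, h'⟩
  · rfl
  · exact absurd ((P004M.TE.two_tors two_ne_zero h').1 e) (bas h' (not_le.1 h)).2.1

theorem big {q : Qb[X]} (hm : q.Monic) (h0 : q.nextCoeff ≠ 0) :
    ∃ x, q.IsRoot x ∧ v q.nextCoeff ≤ v x := by
  by_contra! k
  have e := (IsAlgClosed.splits q).nextCoeff_eq_neg_sum_roots_of_monic hm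
  have : v q.roots.sum < v q.nextCoeff :=
    Multiset.sum_induction (fun a => v a < v q.nextCoeff) _ (fun _ _ => v.map_add_lt)
      (by simpa using zero_lt_iff.2 ((map_ne_zero v).2 h0))
      fun a ha => k a (isRoot_of_mem_roots ha)
  rw [e, Valuation.map_neg] at this
  exact this.false

variable (hD : 4 * A ^ 3 + 27 * B ^ 2 ≠ 0)
include hD

theorem hD' : 4 * (A : ℚ) ^ 3 + 27 * (B : ℚ) ^ 2 ≠ 0 := by exact_mod_cast hD

theorem surj {z : Qb} (hz : v z < 1) : ∃ y : Pt A B, KerV v y ∧ zf y = z := by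
  by_cases z0 : z = 0
  · exact ⟨0, trivial, z0.symm⟩
  have hn : nextCoeff (X ^ 3 - C (z⁻¹ ^ 2) * X ^ 2 + C (A : Qb) * X + C (B : Qb)) = -z⁻¹ ^ 2 := by
    rw [nextCoeff_of_natDegree_pos (by rw [show natDegree _ = 3 by compute_degree!]; norm_num),
      show natDegree _ = 3 by compute_degree!]
    simp [coeff_X_pow, coeff_X, coeff_C, -map_pow, -map_intCast]
  obtain ⟨x, hx, le⟩ := big (v := v) (by monicity!) (hn ▸ neg_ne_zero.2 (by simpa using z0))
  rw [hn, Valuation.map_neg, map_pow, map_inv₀] at le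
  have h1 : 1 < v x := lt_of_lt_of_le (one_lt_pow₀ ((one_lt_inv₀ (zero_lt_iff.2
    ((map_ne_zero v).2 z0))).2 hz) two_ne_zero) le
  simp only [IsRoot.def, eval_sub, eval_mul, eval_add, eval_pow, eval_C, eval_X] at hx
  have h : (Cv Qb (A : ℚ) (B : ℚ)).Nonsingular x (-x / z) :=
    P004M.TE.nsg_cv two_ne_zero (hD' hD) (by rw [eA, eA, div_eq_mul_inv]; linear_combination -hx)
  refine ⟨.some _ _ h, not_le.2 h1, ?_⟩
  have := (bas h h1).1
  change -x / (-x / z) = z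
  field_simp

theorem half {y : Pt A B} (hy : KerV v y) (h2 : v (zf y) < v 2) :
    ∃ w : Pt A B, KerV v w ∧ 2 • w = y ∧ v 2 * v (zf w) ≤ v (zf y) := by
  rcases y with _ | ⟨x₀, y₀, h₀⟩
  · exact ⟨0, trivial, nsmul_zero 2, (mul_le_of_le_one_left' (vn 2))⟩
  obtain ⟨x0, -, e0⟩ := bas h₀ (not_le.1 hy)
  have hn : nextCoeff (X ^ 4 - C (4 * x₀) * X ^ 3 - C (2 * A : Qb) * X ^ 2 -
      C (8 * B + 4 * x₀ * A) * X + C (A ^ 2 - 4 * x₀ * B)) = -(4 * x₀) := by
    rw [nextCoeff_of_natDegree_pos (by rw [show natDegree _ = 4 by compute_degree!]; norm_num),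
      show natDegree _ = 4 by compute_degree!]
    simp only [coeff_add, coeff_sub, coeff_C_mul, coeff_X_pow, coeff_X, coeff_C]
    simp
  obtain ⟨x, hx, le⟩ := big (v := v) (by monicity!) (hn ▸ neg_ne_zero.2 (by simpa using x0))
  rw [hn, Valuation.map_neg, show (4 : Qb) = 2 ^ 2 by norm_num, map_mul, map_pow, mul_comm] at le
  have p0 : 0 < v x₀ := zero_lt_iff.2 ((map_ne_zero v).2 x0)
  have h1 : 1 < v x := by
    refine lt_of_lt_of_le ?_ le
    rw [← e0]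
    exact mul_lt_mul_of_pos_left (pow_lt_pow_left₀ h2 zero_le' two_ne_zero) p0
  simp only [IsRoot.def, eval_sub, eval_mul, eval_add, eval_pow, eval_C, eval_X] at hx
  have key : ∀ y (h : (Cv Qb (A : ℚ) (B : ℚ)).Nonsingular x y),
      v 2 * v (zf (.some x y h)) ≤ v (zf (.some x₀ y₀ h₀)) := fun y h => by
    refine (pow_le_pow_iff_left₀ zero_le' zero_le' two_ne_zero).1 (le_of_mul_le_mul_left ?_ p0)
    rw [mul_pow, ← mul_assoc]
    exact (mul_le_mul_left le _).trans ((bas h h1).2.2.trans e0.symm).le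
  obtain ⟨y, h⟩ := P004M.TE.exists_pt (L := Qb) two_ne_zero (hD' hD) x
  obtain ⟨μ, hμ, e1, e2⟩ := P004M.TE.dbl two_ne_zero h
  simp only [eA] at e1
  have e3 : xp (2 • Point.some x y h) = x₀ * zp (2 • Point.some x y h) := by
    rw [e1, e2]; linear_combination μ * hx - 4 * μ * x₀ * eq' h
  have h0 : 2 • Point.some x y h ≠ 0 := by
    intro e
    rw [e, xp_zero, zp_zero, mul_zero] at e3
    exact one_ne_zero e3
  have e4 : xp (2 • Point.some x y h) = xp (.some x₀ y₀ h₀) := by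
    generalize 2 • Point.some x y h = S at e3 h0
    rcases S with _ | ⟨x₁, y₁, h₁⟩
    · exact absurd rfl h0
    · simpa using e3
  rcases P004M.TE.xp_eq h0 (Point.some_ne_zero _) e4 with e | e
  · exact ⟨.some x y h, not_le.2 h1, e, key y h⟩
  · exact ⟨-Point.some x y h, not_le.2 h1, by rw [neg_nsmul, e, neg_neg], key _ _⟩

end val

/-! ### primes -/

variable {P : Ideal (𝓞 Qb)}

theorem ex_nat (h : P ≠ ⊥) : ∃ p : ℕ, p ≠ 0 ∧ (p : 𝓞 Qb) ∈ P := by
  obtain ⟨x, hx, x0⟩ := Submodule.exists_mem_ne_zero_of_ne_bot h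
  obtain ⟨n, hn, n0⟩ := Submodule.exists_mem_ne_zero_of_ne_bot
    (Ideal.comap_ne_bot_of_integral_mem x0 hx (RingOfIntegers.isIntegral x))
  refine ⟨n.natAbs, Int.natAbs_ne_zero.2 n0, ?_⟩
  have h1 : (n : 𝓞 Qb) ∈ P := hn
  rw [← Int.cast_natCast]
  rcases Int.natAbs_eq n with e | e
  · rwa [← e]
  · rwa [← neg_mem_iff, ← Int.cast_neg, ← e]

/-- `O` is the valuation ring of `P` -/
structure Vr (P : Ideal (𝓞 Qb)) (O : ValuationSubring Qb) : Prop where
  ip : ∀ a, Ip P a ↔ O.valuation a ≤ 1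
  zp : ∀ a, Zp P a ↔ O.valuation a < 1

theorem ex_O (hP : P.IsPrime) (h0 : P ≠ ⊥) : ∃ O, Vr P O := by
  obtain ⟨p, hp, h⟩ := ex_nat h0
  have h1 : ∀ x : Qb, x ∈ P004M.TE.loc hP ∨ x⁻¹ ∈ P004M.TE.loc hP := by
    intro x
    obtain ⟨s, t, h2, h3 | h3⟩ := P004M.TE.dich hP hp h x
    · exact Or.inl ⟨s, t, h2, h3⟩
    · by_cases hx : x = 0
      · exact Or.inl (hx ▸ (P004M.TE.loc hP).zero_mem)
      · refine Or.inr ⟨s, t, h2, ?_⟩
        rw [← h3, mul_comm x, mul_inv_cancel_right₀ hx]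
  have hO : ∀ x, x ∈ ValuationSubring.ofSubring _ h1 ↔ x ∈ P004M.TE.loc hP := fun x => Iff.rfl
  generalize ValuationSubring.ofSubring _ h1 = O at hO
  have ip : ∀ a, Ip P a ↔ O.valuation a ≤ 1 := fun a =>
    (hO a).symm.trans (O.valuation_le_one_iff a).symm
  refine ⟨O, ip, fun a => ⟨fun ⟨s, t, a, b, c⟩ => P004M.TE.lt_one hP hO a b c, fun k => ?_⟩⟩
  obtain ⟨s, t, hs, e⟩ := (ip a).2 k.le
  refine ⟨s, t, hs, by_contra fun ht => ?_, e⟩
  have a0 : a ≠ 0 := by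
    rintro rfl
    exact ht ((RingOfIntegers.ext (e.symm.trans (mul_zero _)) : t = 0) ▸ P.zero_mem)
  have := (ip a⁻¹).1 ⟨t, s, ht, by rw [← e, mul_inv_cancel_right₀ a0]⟩
  rw [map_inv₀, inv_le_one₀ (zero_lt_iff.2 ((_root_.map_ne_zero _).2 a0))] at this
  exact this.not_gt k

theorem Vr.mem {O : ValuationSubring Qb} (hO : Vr P O) (hP : P.IsPrime) (x : 𝓞 Qb) :
    O.valuation (x : Qb) < 1 ↔ x ∈ P := by
  rw [← hO.zp]
  refine ⟨fun ⟨s, t, a, b, c⟩ => ?_, fun h => ⟨1, x, hP.one_notMem, h, one_mul _⟩⟩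
  exact (hP.mem_or_mem ((RingOfIntegers.ext c : s * x = t).symm ▸ b)).resolve_left a

theorem Vr.k1 {O : ValuationSubring Qb} (hO : Vr P O) {A B : ℤ} (y : Pt A B) :
    K1 P y ↔ KerV O.valuation y := by
  rcases y with _ | ⟨x, y, h⟩
  · exact ⟨fun _ => trivial, fun _ _ _ _ e => absurd e.symm (Point.some_ne_zero _)⟩
  refine ⟨fun k e => k _ _ _ rfl ((hO.ip _).2 e), fun k a b h' e i => k ?_⟩
  obtain ⟨rfl, -⟩ := e
  exact (hO.ip _).1 i

theorem Vr.fk {O : ValuationSubring Qb} (hO : Vr P O) {A B : ℤ} {κ : ℕ} (hκ : κ ≠ 0)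
    (y : Pt A B) : Fk P κ y ↔ KerV O.valuation y ∧ O.valuation (zf y) ≤ O.valuation κ := by
  rw [Fk, hO.k1, hO.ip, map_div₀, div_le_one₀ (zero_lt_iff.2 (by simpa using hκ))]

/-- the decomposition group -/
def Dc (P : Ideal (𝓞 Qb)) (g : GQ) : Prop := ∀ x : 𝓞 Qb, g • x ∈ P ↔ x ∈ P

theorem Dc.inv {g : GQ} (h : Dc P g) : Dc P g⁻¹ := fun x => by rw [← h, smul_inv_smul]

theorem Dc.mul {g g' : GQ} (h : Dc P g) (h' : Dc P g') : Dc P (g * g') := fun x => by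
  rw [mul_smul, h, h']

theorem Dc.pow {g : GQ} (h : Dc P g) (n : ℕ) : Dc P (g ^ n) := by
  induction n with
  | zero => exact fun x => by rw [pow_zero, one_smul]
  | succ n ih => exact pow_succ g n ▸ ih.mul h

theorem Dc.of {g : GQ} (hP : P.IsPrime) {e : ℕ} (he : e ≠ 0)
    (h : ∀ x : 𝓞 Qb, g • x - x ^ e ∈ P) : Dc P g := fun x =>
  ⟨fun k => hP.mem_of_pow_mem e (by simpa using P.sub_mem k (h x)), fun k => by
    simpa using P.add_mem (h x) (P.pow_mem_of_mem k e (Nat.pos_of_ne_zero he))⟩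

theorem Dc.ip {g : GQ} (h : Dc P g) {a : Qb} : Ip P a → Ip P (g a) := fun ⟨s, t, b, c⟩ =>
  ⟨g • s, g • t, fun k => b ((h s).1 k), (map_mul g (s : Qb) a).symm.trans (congrArg g c)⟩

theorem Dc.zp {g : GQ} (h : Dc P g) {a : Qb} : Zp P a → Zp P (g a) := fun ⟨s, t, b, d, c⟩ =>
  ⟨g • s, g • t, fun k => b ((h s).1 k), (h t).2 d, (map_mul g (s : Qb) a).symm.trans (congrArg g c)⟩

theorem zf_ga {A B : ℤ} (g : GQ) (y : Pt A B) : zf (ga g y) = g (zf y) := by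
  rcases y with _ | ⟨x, y, h⟩
  · exact (congrArg zf (map_zero (ga g))).trans (map_zero g).symm
  · rw [P004M.TE.ga_some]
    simp [zf]

theorem Dc.k1 {g : GQ} (h : Dc P g) {A B : ℤ} {y : Pt A B} (k : K1 P y) : K1 P (ga g y) := by
  rcases y with _ | ⟨x, y, h'⟩
  · exact (map_zero (ga g)).symm ▸ k
  rw [P004M.TE.ga_some]
  rintro a b h'' ⟨rfl, -⟩ i
  exact k _ _ _ rfl (by simpa using h.inv.ip i)

theorem Dc.fk {g : GQ} (h : Dc P g) {A B : ℤ} {κ : ℕ} {y : Pt A B} (k : Fk P κ y) :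
    Fk P κ (ga g y) := ⟨h.k1 k.1, by simpa [zf_ga] using h.ip k.2⟩

end Fg

open Fg in
/-- row FG -/
theorem fg : FG := by
  intro A B hD P hP h0
  obtain ⟨O, hO⟩ := ex_O hP h0
  have sub : ∀ {y y' : Pt A B}, KerV O.valuation y → KerV O.valuation y' →
      KerV O.valuation (y - y') := fun a b => by
    rw [sub_eq_add_neg]; exact kerV_add cf a (kerV_neg.2 b)
  have p2 : 0 < O.valuation 2 := zero_lt_iff.2 (by simp)
  refine ⟨(hO.k1 _).2 trivial, fun y y' a b => (hO.k1 _).2 (sub ((hO.k1 _).1 a) ((hO.k1 _).1 b)),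
    fun g hg y => Dc.k1 hg, fun h2 y hy => ?_, fun z hz => ?_, fun κ hκ => ⟨fun y y' a b => ?_,
    fun g hg y => Dc.fk hg, fun h2 y => ⟨fun a => ⟨?_, tors ((hO.k1 _).1 a.1)⟩, fun a => ?_⟩⟩⟩
  · rw [hO.k1] at hy
    obtain ⟨w, a, b, -⟩ := half hD hy ((ker hy).1.trans_le (not_lt.1 fun k => h2
      ((hO.mem hP 2).1 k)))
    refine ⟨w, ⟨(hO.k1 _).2 a, b⟩, fun w' k => sub_eq_zero.1 (tors (sub ((hO.k1 _).1 k.1) a) ?_)⟩
    rw [nsmul_sub, k.2, b, sub_self]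
  · obtain ⟨y, a, b⟩ := surj hD ((hO.zp z).1 hz)
    exact ⟨y, ⟨(hO.k1 _).2 a, b⟩, fun y' k => inj ((hO.k1 _).1 k.1) a (k.2.trans b.symm)⟩
  · have pκ : 0 < O.valuation κ := zero_lt_iff.2 (by simpa using hκ)
    rw [hO.fk hκ] at a b ⊢
    have c := add_le a.1 (kerV_neg.2 b.1) (le_max_left _ (O.valuation (zf y')))
      (by rw [zf_neg, Valuation.map_neg]; exact le_max_right _ _)
    rw [← sub_eq_add_neg, zf_neg, ← sub_eq_add_neg] at c
    refine ⟨⟨sub a.1 b.1, c.1.trans (max_le a.2 b.2)⟩, ?_⟩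
    rw [hO.zp, ← sub_div, ← sub_div, map_div₀, div_lt_one₀ pκ]
    refine c.2.trans_lt ?_
    rw [pow_succ']
    exact (mul_le_mul_left (max_le a.2 b.2) _).trans_lt (mul_lt_of_lt_one_right pκ
      (pow_lt_one₀ zero_le' (max_lt (ker a.1).1 (ker b.1).1) two_ne_zero))
  · have l2 : O.valuation κ ≤ O.valuation 2 := by
      obtain ⟨m, rfl⟩ := h2
      simpa using val_mul_le (le_refl (O.valuation 2)) (vn m)
    rw [hO.fk hκ] at a
    rw [hO.fk (mul_ne_zero two_ne_zero hκ), two_smul]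
    refine ⟨kerV_add cf a.1 a.1, ?_⟩
    rw [← sub_add_cancel (zf (y + y)) (zf y + zf y), Nat.cast_mul, map_mul, Nat.cast_ofNat]
    refine O.valuation.map_add_le ((add_le a.1 a.1 le_rfl le_rfl).2.trans ?_) ?_
    · rw [pow_succ, pow_two]
      simpa using mul_le_mul' (mul_le_mul' (a.2.trans l2) a.2) (ker a.1).1.le
    · rw [← two_mul]
      exact val_mul_le le_rfl a.2
  · have pκ : 0 < O.valuation κ := zero_lt_iff.2 (by simpa using hκ)
    have l2 : O.valuation κ ≤ O.valuation 2 := by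
      obtain ⟨m, rfl⟩ := h2
      simpa using val_mul_le (le_refl (O.valuation 2)) (vn m)
    rw [hO.fk (mul_ne_zero two_ne_zero hκ), Nat.cast_mul, map_mul, Nat.cast_ofNat] at a
    obtain ⟨w, b, rfl, c⟩ := half hD a.1 (by
      rcases (l2.trans (vn (v := O.valuation) 2)).lt_or_eq with k | k
      · exact a.2.trans_lt (mul_lt_of_lt_one_right p2 k)
      · exact (ker a.1).1.trans_le (k.ge.trans l2))
    have d := le_of_mul_le_mul_left (c.trans a.2) p2
    refine ⟨w, (hO.fk hκ _).2 ⟨b, d⟩, rfl, ?_⟩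
    have e : zf w / κ - zf (2 • w) / (2 * κ : ℕ) = -((zf (w + w) - (zf w + zf w)) / (2 * κ)) := by
      have : (κ : Qb) ≠ 0 := by simpa using hκ
      rw [two_smul]
      push_cast
      field_simp
      ring
    rw [hO.zp, e, Valuation.map_neg, map_div₀, map_mul, div_lt_one₀ (mul_pos p2 pκ)]
    refine (add_le b b le_rfl le_rfl).2.trans_lt ?_
    rw [pow_succ, pow_two]
    exact (mul_le_mul_left (mul_le_mul' (d.trans l2) d) _).trans_lt
      (mul_lt_of_lt_one_right (mul_pos p2 pκ) (ker b).1)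

end Vale.Agent.P004F.Qx
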