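import Vale.Agent.P004F.Qx.Mpv
import Vale.Agent.P004K.Hg.At

/-! # P004F, block QEXP: the maximum principle at Heegner points -/

set_option autoImplicit false
set_option linter.all false

open UpperHalfPlane hiding I
open CongruenceSubgroup NumberField
open scoped MatrixGroups Classical

noncomputable section

namespace Vale.Agent.P004F.Qx

open Vale.Agent.P022 P027H P027M.M P004K P004K.Hg
open P004Z.Fin (Ov)

variable {V : AbsoluteValue ℂ ℝ} {P : Ideal (𝓞 Qb)}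

theorem one_nm (hP : P.IsPrime) : (1 : 𝓞 Qb) ∉ P := (Ideal.ne_top_iff_one P).1 hP.ne_top

theorem Vp.le (h : Vp V P) (hP : P.IsPrime) (x : 𝓞 Qb) : V (io x) ≤ 1 :=
  (h.2 x).1.1 ⟨1, x, one_nm hP, by simp⟩

theorem Vp.lt (h : Vp V P) (hP : P.IsPrime) {x : 𝓞 Qb} : V (io x) < 1 ↔ x ∈ P := by
  rw [← (h.2 x).2]
  refine ⟨fun ⟨s, t, a, b, e⟩ => (hP.mem_or_mem (x := s) ?_).resolve_left a,
    fun k => ⟨1, x, one_nm hP, k, by simp⟩⟩
  rwa [show s * x = t from RingOfIntegers.ext (by simpa using e)]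

theorem Vp.one (h : Vp V P) (hP : P.IsPrime) {x : 𝓞 Qb} (k : x ∉ P) : V (io x) = 1 :=
  (h.le hP x).antisymm (not_lt.1 fun z => k ((h.lt hP).1 z))

theorem Vp.ov (h : Vp V P) (hP : P.IsPrime) {p : ℕ} (hp : p.Prime) (k : (p : 𝓞 Qb) ∈ P) :
    Ov V p := ⟨hp, h.1, by simpa using (h.lt hP).2 k⟩

theorem re_zero {z : ℂ} {r : ℝ} (h : z ^ 2 = r) (k : z.im ≠ 0) : z.re = 0 := by
  have := congrArg Complex.im h
  simp only [sq, Complex.mul_im, Complex.ofReal_im] at this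
  exact (mul_eq_zero.1 (show z.re * z.im = 0 by linarith)).resolve_right k

theorem sq_class {K : Type} [Field K] [NumberField K] (q : Iq K) (J : K →+* ℂ) {θ γ : K} {a b : ℤ}
    (ha : J θ ^ 2 = a) (hb : J γ ^ 2 = b) (k : (J θ).im ≠ 0) (k' : (J γ).im ≠ 0) :
    IsSquare (b * a) := by
  have n : ¬ LinearIndependent ℚ ![1, θ, γ] := fun h => by
    simpa [q.two] using h.fintype_card_le_finrank
  obtain ⟨g, e, i, hi⟩ := Fintype.not_linearIndependent_iff.1 n
  simp only [Fin.sum_univ_three, Matrix.cons_val, Rat.smul_def, mul_one] at e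
  have r1 := re_zero (r := a) (by simpa using ha) k
  have r2 := re_zero (r := b) (by simpa using hb) k'
  have e0 : g 0 = 0 := by simpa [r1, r2] using congrArg (fun z => (J z).re) e
  have e1 : (g 1 : ℝ) * (J θ).im + g 2 * (J γ).im = 0 := by
    simpa using congrArg (fun z => (J z).im) e
  have e2 : g 2 ≠ 0 := fun z => by
    have : g 1 = 0 := by simpa [z, k] using e1
    fin_cases i <;> simp_all
  rw [e0, Rat.cast_zero, zero_add] at e
  have e3 : (g 2 ^ 2 * b : ℂ) = g 1 ^ 2 * a := by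
    have := congrArg J e
    rw [map_add, map_mul, map_mul, map_ratCast, map_ratCast, map_zero] at this
    rw [← ha, ← hb]
    linear_combination (g 2 * J γ - g 1 * J θ : ℂ) * this
  have e4 : g 2 ^ 2 * b = g 1 ^ 2 * a := by exact_mod_cast e3
  refine Rat.isSquare_intCast_iff.1 ⟨g 1 * a / g 2, ?_⟩
  push_cast
  field_simp
  linear_combination (a : ℚ) * e4

theorem typ : TYP := fun K _ _ j q M c δ θ I I' P V M0 hθ δ0 sp hP hV le hc g hg σ τ τ' ex hp cj => by
  obtain ⟨Λ, ψ, t⟩ := ex_tp (At.lat hp) σ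
  obtain ⟨ω, hω, h1⟩ := (st_cj M0 hp t (ex.JJ hg)).2 cj
  obtain ⟨i, hi, i', hi', e⟩ := Submodule.mem_sup.1 (sp.cop ▸ Submodule.mem_top (x := (1 : 𝓞 K)))
  have h0 : (M : ℂ) ≠ 0 := by exact_mod_cast M0.ne'
  have key : ∀ z ∈ lat τ', ∃ m n : ℤ, JJ j (c * i') * z = m * M * τ' + n := fun z hz => by
    obtain ⟨a, ha⟩ := (h1 (JJ j (c * i') * (ω * z) / M)).1 fun a ha _ => by
      obtain ⟨b, hb⟩ := Ideal.mem_span_singleton'.1 (sp.mul ▸ Ideal.mul_mem_mul ha hi')
      have := congrArg (JJ j) hb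
      refine mem_of_eq ((tp_end t (ex.JJ hg) _).2 (kl_Oc b) _ ((hω.2 z).1 hz)) ?_
      simp only [map_mul, map_natCast] at this ⊢
      field_simp
      linear_combination (-c * ω * z : ℂ) * this
    obtain ⟨m, n, k⟩ := mem_lat.1 ((hω.2 (JJ j (c * i') * z / M - a / M)).2 (mem_of_eq ha (by ring)))
    refine ⟨m, a + n * M, ?_⟩
    push_cast
    field_simp at k
    linear_combination -k
  obtain ⟨m, n, k⟩ := key _ self_lat
  obtain ⟨m', n', k'⟩ := key _ one_lat
  rw [mul_one] at k'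
  have v1 : V (JJ j (c * i')) = 1 := hV.one hP (x := RingOfIntegers.mapRingHom j (c * i')) fun z => by
    rw [map_mul, map_natCast] at z
    refine one_nm hP ?_
    have := add_mem (le hi) ((hP.mem_or_mem z).resolve_left hc)
    simpa [e, below] using this
  have vM : V M < 1 := by
    simpa using (hV.lt hP (x := RingOfIntegers.mapRingHom j M)).2
      (le (by simpa using (sp.cn.1 M).2 dvd_rfl))
  have m0 : m' ≠ 0 := by
    rintro rfl
    rw [Int.cast_zero, zero_mul, zero_mul, zero_add] at k'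
    rw [k'] at k v1
    have := (ind (τ := τ') (a := n') (b := 0) (c := m * M) (d := n) (by simpa using k)).1
    rw [this, Int.cast_mul, map_mul, Int.cast_natCast] at v1
    nlinarith [hV.1.apply_intCast_le_one (n := m), V.nonneg (m : ℂ), V.nonneg (M : ℂ)]
  have e1 : (JJ j (2 * (c * i') - (m * M + n' : ℤ))) ^ 2 =
      ((n' - m * M) ^ 2 + 4 * m' * M * n : ℤ) := by
    rw [map_sub, map_mul, map_ofNat, map_intCast]
    push_cast
    linear_combination 4 * (m' * M : ℂ) * k + 4 * (JJ j (c * i') - m * M) * k'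
  have e2 : (JJ j (2 * (c * i') - (m * M + n' : ℤ))).im ≠ 0 := by
    rw [map_sub, map_mul, map_ofNat, map_intCast, k']
    simp [m0, M0.ne', τ'.im_pos.ne']
  have e3 : JJ j θ ^ 2 = (-δ : ℤ) := by simpa using congrArg (JJ j) hθ
  refine ⟨_, ⟨m, n, m', n', _, k, k', v1, rfl⟩, fun z => e2 ?_,
    sq_class q ((io : Qb →+* ℂ).comp j) e3 e1 (fun z => ?_) e2⟩
  · rw [z, Int.cast_zero, sq_eq_zero_iff] at e1
    rw [e1, Complex.zero_im]
  · have := congrArg Complex.re e3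
    have z' : (JJ j θ).im = 0 := z
    simp only [sq, Complex.mul_re, z', Complex.intCast_re] at this
    have : (0 : ℝ) < δ := by exact_mod_cast Nat.pos_of_ne_zero δ0
    push_cast at *
    nlinarith [mul_self_nonneg (JJ j θ).re]

theorem ex_char (hP : P.IsPrime) {M : ℕ} (M0 : 0 < M) (h : (M : 𝓞 Qb) ∈ P) :
    ∃ p, p.Prime ∧ p ∣ M ∧ (p : 𝓞 Qb) ∈ P := by
  induction M using Nat.recOnMul with
  | zero => omega
  | one => exact (one_nm hP (by simpa using h)).elim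
  | prime p hp => exact ⟨p, hp, dvd_rfl, h⟩
  | mul a b ha hb =>
    rw [Nat.cast_mul] at h
    rcases hP.mem_or_mem h with h | h
    · exact (ha (Nat.pos_of_mul_pos_right M0) h).imp fun p k => ⟨k.1, k.2.1.mul_right _, k.2.2⟩
    · exact (hb (Nat.pos_of_mul_pos_left M0) h).imp fun p k => ⟨k.1, k.2.1.mul_left _, k.2.2⟩

theorem mpc : MPC := fun V P M hP _ hV M0 u hu s hs hi => by
  by_cases h : (M : 𝓞 Qb) ∈ P
  swap
  · exact ⟨0, fun δ _ _ K _ _ j q c θ I I' _ sp le => (h (by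
      simpa [below] using le ((sp.cn.1 M).2 dvd_rfl))).elim⟩
  obtain ⟨p, hp, d, k⟩ := ex_char hP M0 h
  obtain ⟨T, T0, hT⟩ := mpv V p M (hV.ov hP hp k) M0 d u hu s hs hi
  refine ⟨T.sup Int.natAbs + 1, fun δ le sf K _ _ j q c θ I I' hθ sp hI hc g hg σ τ τ' ex h1 h2 => ?_⟩
  obtain ⟨D, a, D0, x, hx⟩ := typ K j q M c δ θ I I' P V M0 hθ sf.ne_zero sp hP hV hI hc g hg σ τ τ'
    ex h1 h2
  refine hT D τ' a fun D' hD ⟨y, hy⟩ => ?_
  obtain ⟨z, hz⟩ : IsSquare (D' * -δ) := P004Z.Fin.sq_cancel D0 ⟨x * y, by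
    linear_combination (D * D') * hx + x * x * hy⟩
  have s1 : Squarefree (δ : ℤ) := Int.squarefree_natCast.2 sf
  obtain ⟨r, rfl⟩ : (δ : ℤ) ∣ z := (s1.dvd_pow_iff_dvd two_ne_zero).1 ⟨-D', by
    rw [sq, ← hz]; ring⟩
  have d0 : (δ : ℤ) ≠ 0 := s1.ne_zero
  have := Nat.le_of_dvd (Int.natAbs_pos.2 fun z => T0 (z ▸ hD)) (Int.natCast_dvd.1
    (⟨-(r * r), mul_left_cancel₀ d0 (by linear_combination -hz)⟩ : (δ : ℤ) ∣ D'))
  have := Finset.le_sup (f := Int.natAbs) hD
  omega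

end Vale.Agent.P004F.Qx
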