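import Vale.Agent.P004F.Qx.Exp

/-! # P004F, block QEXP: modular functions against modular forms modulo two -/

set_option autoImplicit false
set_option linter.all false

open UpperHalfPlane hiding I
open CongruenceSubgroup NumberField ModularForm PowerSeries
open scoped MatrixGroups Classical

noncomputable section

namespace Vale.Agent.P004F.Qx

open Vale.Agent.P022 P027H P027M.M P004K Vale.Agent.P022.H218.L3 Vale.Agent.P022.H236
  Vale.Agent.P022.H236.L3 Vale.Agent.P022.H542.L3 Vale.Agent.P022D.Irr P004Z.Fin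
open P004Z.EF (Val)

/-- **the Hasse invariant is one**: if `u ≡ g` as series then `u ^ m ≡ g ^ m / E₄ ^ e` at the
conjugates of the Heegner points -/
def LNK : Prop := ∀ (V : AbsoluteValue ℂ ℝ) (P : Ideal (𝓞 Qb)) (M : ℕ), P.IsPrime →
  (2 : 𝓞 Qb) ∈ P → Vp V P → 0 < M → ∀ u ∈ MF (Gamma0 M), ∀ s, ExM 1 s u →
  (∀ n, V (s.coeff n) ≤ 1) → ∀ (g : ℍ → ℂ) (t : LS) (m e : ℕ) (π : ℂ),
  IsMF (Gamma0 M) (e * 4) (g ^ m) → ExL 1 t g → V 2 ≤ V π → V π ≤ 1 →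
  (∀ n, V (s.coeff n - t.coeff n) ≤ V π) → ∃ T : ℕ, ∀ δ, T ≤ δ → Squarefree δ →
  ∀ (K : Type) [Field K] [NumberField K] (j : K →+* Qb), Iq K →
  ∀ (c : ℕ) (θ : 𝓞 K) (I I' : Ideal (𝓞 K)), θ ^ 2 = -(δ : 𝓞 K) → Sp M I I' → I ≤ below j P →
  (c : 𝓞 Qb) ∉ P → ∀ h ∈ GK j, ∀ σ τ τ', Ex σ h → Hp (JJ j) M I c τ → Cj0 σ M τ τ' →
  V (jf τ') = 1 ∧ ∀ a, Val τ' u a → V (a ^ m - g τ' ^ m / E₄ τ' ^ e) ≤ V π

theorem int_ls {O : ValuationSubring ℂ} (F : ℤ⟦X⟧) : ls 0 (toCi F) ∈ Int O := mem_Int.2 fun n => by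
  rcases lt_or_ge n 0 with hn | hn
  · exact coeff_ls_of_lt 0 _ hn ▸ zero_mem _
  lift n to ℕ using hn
  have := coeff_ls 0 (toCi F) n
  rw [zero_add] at this
  rw [this, coeff_map]
  exact intCast_mem _ _

theorem E4_ser : ∃ F G : ℤ⟦X⟧, ls 0 (toCi E4i) * ls 0 (toCi G) = 1 ∧
    ls 0 (toCi E4i) = 1 + HahnSeries.C 2 * ls 0 (toCi F) := by
  refine ⟨PowerSeries.mk fun n => if n = 0 then 0 else 120 * (ArithmeticFunction.sigma 3 n : ℤ),
    E4i.invOfUnit 1, ?_, ?_⟩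
  · rw [ls_mul, ← map_mul, mul_invOfUnit _ _ (by simp [E4i]), map_one, add_zero, ls_zero_one]
  · rw [← ls_C, ls_mul, ← ls_zero_one, add_zero, ls_add]
    congr 1
    ext n
    simp only [map_add, coeff_C_mul, coeff_map, E4i, coeff_mk, coeff_one]
    split_ifs <;> simp
    ring

theorem two_dvd {P : Ideal (𝓞 Qb)} (hP : P.IsPrime) (h2 : (2 : 𝓞 Qb) ∈ P) {M : ℕ}
    (h : (M : 𝓞 Qb) ∈ P) : 2 ∣ M := by_contra fun n =>
  nm_cop (p := 2) hP (by simpa using h2) (Nat.prime_two.coprime_iff_not_dvd.2 n).symm h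

theorem lnk : LNK := fun V P M hP h2 hV M0 u hu s hs hi g t m e π hg ht p2 p1 hc => by
  have p0 : π ≠ 0 := fun z => by simp [z] at p2
  have vp := V.pos p0
  have hE := (isMF_E4.pow e).mono (le_top (a := Gamma0 M))
  have E0 : (E₄ : ℍ → ℂ) ^ e ≠ 0 := fun z => pow_ne_zero e (inc_ne_zero isMF_E4.hol E4_ne)
    (by rw [inc, ← map_pow]; exact (inc_eq_zero hE.hol).2 z)
  obtain ⟨F, G, e1, e2⟩ := E4_ser
  have m1 := mul_mem ((MF (Gamma0 M)).algebraMap_mem π⁻¹)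
    (sub_mem (pow_mem hu m) (mem_MF.2 ⟨_, _, _, hg, hE, E0, rfl⟩))
  have x1 : ∀ n : ℕ, ExM 1 (s ^ n) (u ^ n) := fun n => by
    induction n with
    | zero => simpa using ExM.const 1 1
    | succ n ih => exact pow_succ s n ▸ pow_succ u n ▸ ih.mul hs
  have x2 := (ExM.const 1 π⁻¹).mul ((x1 m).add ((ExM.const 1 (-1)).mul
    (ExL.exM hg.hol hE.hol E0 (ht.pow m) (exL_E4_one.pow e))))
  rw [map_neg (algebraMap ℂ Mer), map_one, neg_one_mul, ← sub_eq_add_neg] at x2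
  have i1 : s ∈ Int (vO hV.1) := mem_Int.2 hi
  have i2 : HahnSeries.C π⁻¹ * (s - t) ∈ Int (vO hV.1) := mem_Int.2 fun n => by
    rw [mem_vO, HahnSeries.C_mul_eq_smul, HahnSeries.coeff_smul, smul_eq_mul, map_mul, map_inv₀,
      inv_mul_le_one₀ vp, HahnSeries.coeff_sub]
    exact hc n
  have cp : (HahnSeries.C π : LS) * HahnSeries.C π⁻¹ = 1 := by
    rw [← map_mul, mul_inv_cancel₀ p0, map_one]
  have i3 : t ∈ Int (vO hV.1) := by
    have := sub_mem i1 (mul_mem (C_mem (mem_vO.2 p1)) i2)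
    rwa [← mul_assoc, cp, one_mul, sub_sub_cancel] at this
  have i4 : (HahnSeries.C (π⁻¹ * 2) : LS) ∈ Int (vO hV.1) := C_mem (by
    rwa [mem_vO, map_mul, map_inv₀, inv_mul_le_one₀ vp])
  obtain ⟨a, ha⟩ := sub_dvd_pow_sub_pow (⟨s, i1⟩ : Int (vO hV.1)) ⟨t, i3⟩ m
  obtain ⟨b, hb⟩ := sub_dvd_pow_sub_pow (⟨_, int_ls E4i⟩ : Int (vO hV.1)) 1 e
  have ha' : s ^ m - t ^ m = (s - t) * a := congrArg Subtype.val ha
  have hb' : ls 0 (toCi E4i) ^ e - 1 ^ e = (ls 0 (toCi E4i) - 1) * b := congrArg Subtype.val hb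
  obtain ⟨T, hT⟩ := mpc V P M hP (fun z => two_ne_zero (by simpa [z] using h2 : (2 : 𝓞 Qb) = 0)) hV
    M0 _ m1 _ x2 ((mem_Int (O := vO hV.1)).1 (by
      have := add_mem (mul_mem i2 a.2) (mul_mem (mul_mem (mul_mem (mul_mem i4 (int_ls F)) b.2)
        (pow_mem i3 m)) (pow_mem (int_ls G) e))
      convert this using 1
      rw [div_eq_mul_inv, ← inv_pow, ← eq_inv_of_mul_eq_one_right e1, map_mul, map_neg, map_one]
      have e3 : ls 0 (toCi E4i) ^ e * ls 0 (toCi G) ^ e = 1 := by rw [← mul_pow, e1, one_pow]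
      rw [one_pow] at hb'
      linear_combination HahnSeries.C π⁻¹ * (ha' - t ^ m * e3 + t ^ m * ls 0 (toCi G) ^ e * hb' +
        t ^ m * ls 0 (toCi G) ^ e * b * e2)))
  refine ⟨T, fun δ le sf K _ _ j q c θ I I' hθ sp hI c0 h hh σ τ τ' k1 k2 k3 => ?_⟩
  obtain ⟨D, hD, -⟩ := typ K j q M c δ θ I I' P V M0 hθ sf.ne_zero sp hP hV hI c0 h hh σ τ τ' k1 k2 k3
  have v1 := j_unit (hV.ov hP Nat.prime_two (by simpa using h2)) (two_dvd hP h2 (by
    simpa [below] using hI ((sp.cn.1 M).2 dvd_rfl))) hD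
  have n0 : E₄ τ' ≠ 0 := fun z => by simp [jf, z] at v1
  obtain ⟨r, r1, r2⟩ := hT δ le sf K j q c θ I I' hθ sp hI c0 h hh σ τ τ' k1 k2 k3
  refine ⟨v1, fun a ha => ?_⟩
  have w1 : ∀ n : ℕ, Val τ' (u ^ n) (a ^ n) := fun n => by
    induction n with
    | zero => simpa using Vl.const τ' 1
    | succ n ih => exact pow_succ u n ▸ pow_succ a n ▸ Vl.mul ih ha
  have w2 : Val τ' (inc _ hg.hol / inc _ hE.hol) (g τ' ^ m / E₄ τ' ^ e) :=
    ⟨⟨_, hg.hol⟩, ⟨_, hE.hol⟩, pow_ne_zero e n0, div_mul_cancel₀ _ (inc_ne_zero hE.hol E0),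
      (div_mul_cancel₀ _ (pow_ne_zero e n0)).symm⟩
  have := Vl.uniq r2 (Vl.mul (Vl.const τ' π⁻¹) (Vl.sub (w1 m) w2))
  rwa [this, map_mul, map_inv₀, inv_mul_le_one₀ vp] at r1

/-- the hypotheses of `LNK` for the depleted form -/
theorem lnk_dp {V : AbsoluteValue ℂ ℝ} {P : Ideal (𝓞 Qb)} (hP : P.IsPrime) (h2 : (2 : 𝓞 Qb) ∈ P)
    (hV : Vp V P) {M R : ℕ} {a : ℕ → ℤ} {f : ℍ → ℂ} (d : 2 ∣ R) (hf : P004N.S2 M f)
    (hq : P004N.QE f fun n => (dp R a n : ℂ)) {s : LS} (h0 : Zq 2 s) (h : Cq 2 (dp R a) s) :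
    IsMF (Gamma0 M) ((1 : ℕ) * 4) (f ^ 2) ∧ ∃ t, ExL 1 t f ∧
      ∀ n, V (s.coeff n - t.coeff n) ≤ V 2 := by
  have o := hV.ov hP Nat.prime_two (by simpa using h2)
  have u : ∀ k : ℕ, ¬ 2 ∣ k → V k = 1 := fun k hk => by
    simpa using hV.one hP (x := k) fun z => hk (two_dvd hP h2 z)
  refine ⟨(⟨hf.holo, hf.slash, fun γ => (hf.zero γ).boundedAtFilter⟩ : IsMF _ 2 f).pow 2, _,
    exL_of_hasSum (a := fun n => (dp R a n : ℂ)) fun τ => (hq τ).congr_fun fun n => ?_, fun n => ?_⟩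
  · rw [Function.Periodic.qParam, ← Complex.exp_nat_mul]
    congr 2
    push_cast
    ring
  rcases lt_or_ge n 0 with hn | hn
  · rw [h0.1 n hn, PowerSeries.coeff_coe, if_pos hn, sub_zero, map_zero]
    exact V.nonneg _
  lift n to ℕ using hn
  obtain ⟨k, c, h1, h3⟩ := h n
  have h4 : V (s.coeff n - dp R a n / n) ≤ V 2 := by
    have := congrArg V h3
    rw [map_mul, u c h1, one_mul, map_mul] at this
    rw [this]
    simpa using mul_le_of_le_one_right (V.nonneg 2) (hV.1.apply_intCast_le_one (n := k))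
  rw [LaurentSeries.coeff_coe_powerSeries, coeff_mk, ← sub_add_sub_cancel _ (dp R a n / n : ℂ)]
  refine (hV.1 _ _).trans (max_le h4 ?_)
  rw [dp]
  split_ifs with co
  · have n1 : ¬ 2 ∣ n := fun z => absurd (Nat.eq_one_of_dvd_coprimes co z d) (by norm_num)
    obtain ⟨r, rfl⟩ : Odd n := Nat.not_even_iff_odd.1 fun z => n1 z.two_dvd
    have n0 : ((2 * r + 1 : ℕ) : ℂ) ≠ 0 := Nat.cast_ne_zero.2 (by omega)
    rw [show (a (2 * r + 1) : ℂ) / (2 * r + 1 : ℕ) - a (2 * r + 1) =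
      2 * (-(a (2 * r + 1) * r) : ℤ) / (2 * r + 1 : ℕ) by field_simp; push_cast; ring,
      map_div₀, u _ n1, div_one, map_mul]
    exact mul_le_of_le_one_right (V.nonneg 2) hV.1.apply_intCast_le_one
  · simp

end Vale.Agent.P004F.Qx
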