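import Vale.Agent.P004F.Qx.St
import Vale.Agent.P004Z.Fin.Cmp
import Vale.Agent.P004Z.Fin.R2

/-! # P004F, block QEXP: the maximum principle on the component of the cusp -/

set_option autoImplicit false
set_option linter.all false

open UpperHalfPlane hiding I
open CongruenceSubgroup Polynomial NumberField
open scoped MatrixGroups ModularForm Manifold Classical

noncomputable section

namespace Vale.Agent.P004F.Qx

open Vale.Agent.P022 Vale.Agent.P022.H218.L3 Vale.Agent.P022.H236.L3 Vale.Agent.P022.H542.L3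
  Vale.Agent.P022D.Irr Vale.Agent.P027M.M Vale.Agent.P004M.D Vale.Agent.P022D P004Z P004Z.Fin
open P004Z.EF (Val)
open Vale.Agent.P022K.F0.Cf (jm jm_inj jm_ne)

namespace Mp

variable {V : AbsoluteValue ℂ ℝ} {p M : ℕ}

/-- clearing the poles -/
theorem clear [NeZero M] {u : Mer} (hu : u ∈ MF (Gamma0 M)) :
    ∃ P : ℂ[X], P ≠ 0 ∧ ∃ f : Hol, u * aeval jM P = jm f := by
  obtain ⟨k, g, h, hg, hh, h0, rfl⟩ := hu
  obtain ⟨a, b, e⟩ : ∃ a b : ℕ, k = a - b := ⟨k.toNat, (-k).toNat, by omega⟩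
  have h1 : IsMF (Gamma M) (a * 12) (h ^ 12 * ModularForm.discriminant ^ b) := by
    have := ((hh.mono G_le).pow 12).mul (disc_pow (Gamma M) b)
    rwa [show ((12 : ℕ) : ℤ) * k + b * 12 = a * 12 by rw [e]; push_cast; ring] at this
  obtain ⟨w, hw⟩ : ∃ w : WW M, w.1 = h ^ 12 * ModularForm.discriminant ^ b /
    ModularForm.discriminant ^ a := ⟨⟨_, div_mem_WW h1 (disc_pow _ a) (disc_pow_ne a)⟩, rfl⟩
  obtain ⟨P, -, h2⟩ := Iv.inv_poly (∏ x : GG M, x • w) fun x => by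
    rw [Finset.smul_prod']
    exact Fintype.prod_equiv (Equiv.mulLeft x) _ _ fun a => (mul_smul x a _).symm
  have w0 : exW M w ≠ 0 := (exW_spec w).ne_zero w.2.1 fun z => h0 (funext fun τ => by
    have := congrFun (hw ▸ z) τ
    simpa [ModularForm.discriminant_ne_zero] using this)
  obtain ⟨Q, e1, hQ⟩ := ev_j P
  have hD := (disc_pow ⊤ a).hol
  have e2 := Finset.mul_prod_erase Finset.univ (fun x : GG M => x • w) (Finset.mem_univ 1)
  obtain ⟨r, hr⟩ : ∃ r : WW M, ∏ x ∈ Finset.univ.erase (1 : GG M), x • w = r := ⟨_, rfl⟩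
  rw [hr, one_smul] at e2
  refine ⟨P, ?_, ⟨g * h ^ 11 * ModularForm.discriminant ^ b / ModularForm.discriminant ^ a * r.1,
    mul_mem (MDifferentiable.div (mul_mem (mul_mem hg.hol (pow_mem hh.hol _))
      (disc_pow ⊤ b).hol) hD (disc_pow_ne a)) r.2.1⟩, ?_⟩
  · rintro rfl
    have z : ∏ x : GG M, x • w = 0 := Subtype.ext (funext fun τ => by simpa using h2 τ)
    have := congrArg (exW M) z
    rw [map_prod, map_zero, Finset.prod_eq_zero_iff] at this
    obtain ⟨x, -, hx⟩ := this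
    obtain ⟨γ, rfl⟩ := pr_inv x
    refine (exW_smul w γ).ne_zero (comp_mem γ w.2.1) (fun z => w0 ?_) hx
    rw [show w = 0 from Subtype.ext (funext fun τ => by
      simpa using congrFun z (γ⁻¹ • τ)), map_zero]
  · rw [e1, div_mul_eq_mul_div, div_eq_iff (inc_ne_zero hh.hol h0)]
    simp only [inc, jm, ← map_mul]
    congr 1
    refine Subtype.ext (funext fun τ => ?_)
    have := congrFun (congrArg Subtype.val e2) τ
    change w.1 τ * r.1 τ = _ at this
    change g τ * Q.1 τ = _ * r.1 τ * h τ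
    rw [hQ, ← h2, ← this, hw]
    simp only [Pi.div_apply, Pi.mul_apply, Pi.pow_apply]
    ring

/-- normalisation of a polynomial -/
theorem prim (h : Ov V p) {P : ℂ[X]} (h0 : P ≠ 0) : ∃ c : ℂ,
    (fun τ => c * P.eval (jf τ)) ∈ Iq (vO h.na) ∧ ∀ t, V t ≤ 1 →
      (∀ b, P.IsRoot b → 1 ≤ V (t - b)) → V (c * P.eval t) = 1 := by
  have hs : P ∈ Submonoid.closure ({C a | a : ℂ} ∪ {X + C a | a : ℂ}) := IsAlgClosed.splits P
  induction hs using Submonoid.closure_induction with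
  | mem x hx =>
    obtain ⟨a, rfl⟩ | ⟨a, rfl⟩ := hx
    · have a0 : a ≠ 0 := fun e => h0 (by simp [e])
      simp only [eval_C]
      exact ⟨a⁻¹, const_Iq (by simp [a0, one_mem]), fun _ _ _ => by simp [a0]⟩
    · simp only [eval_add, eval_X, eval_C]
      by_cases ha : V a ≤ 1
      · refine ⟨1, ?_, fun t ht hb => ?_⟩
        · simp only [one_mul]
          exact add_mem gq_j.mem (const_Iq ha)
        · rw [one_mul]
          exact le_antisymm (h.add_le ht ha) (by simpa using hb (-a) (by simp))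
      · have a1 := not_le.1 ha
        have a0 : a ≠ 0 := fun e => ha (by simp [e])
        have a2 : V a⁻¹ < 1 := by
          rw [map_inv₀]
          exact inv_lt_one_of_one_lt₀ a1
        refine ⟨a⁻¹, ?_, fun t ht _ => ?_⟩
        · simp only [mul_add, inv_mul_cancel₀ a0]
          exact add_mem (mul_mem (const_Iq a2.le) gq_j.mem) (one_mem _)
        · rw [mul_add, inv_mul_cancel₀ a0, h.add_eq, map_one]
          rw [map_one, map_mul]
          exact mul_lt_one_of_nonneg_of_lt_one_left (V.nonneg _) a2 ht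
  | one => exact ⟨1, const_Iq (c := 1 * 1) (by simp [one_mem]) |> fun a => by simpa only [eval_one] using a,
      fun _ _ _ => by simp⟩
  | mul x y _ _ hx hy =>
    obtain ⟨c, a1, a2⟩ := hx (left_ne_zero_of_mul h0)
    obtain ⟨d, b1, b2⟩ := hy (right_ne_zero_of_mul h0)
    refine ⟨c * d, ?_, fun t ht hb => ?_⟩
    · simp only [eval_mul, mul_mul_mul_comm c d]
      exact mul_mem a1 b1
    · rw [eval_mul, mul_mul_mul_comm, map_mul, a2 t ht fun b e => hb b (root_mul.2 (Or.inl e)),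
        b2 t ht fun b e => hb b (root_mul.2 (Or.inr e)), mul_one]

/-- holomorphic functions -/
theorem hol [NeZero M] (h : Ov V p) (f : Hol) (hf : jm f ∈ MF (Gamma0 M))
    (hi : f.1 ∈ Iq (vO h.na)) {k N : ℕ} (e : M = p ^ k * N) (hN : ¬ p ∣ N) {τ : ℍ}
    (hj : V (jf τ) ≤ 1) (hs : V (su (dg (p ^ k)) τ) = 1) : V (f.1 τ) ≤ 1 := by
  by_cases f0 : f = 0
  · simp [f0]
  have H := h.cpF e hN
  obtain ⟨c, n, w, w1, w2⟩ := H.nrm f f0 hf
  have c0 : c ≠ 0 := by
    rintro rfl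
    exact w2 (by rw [show w = 0 from Subtype.ext (Subtype.ext (funext fun τ => by
      simpa using w1 τ)), smul_zero, map_zero])
  have cc : 1 ≤ V c := by
    by_contra! z
    have m := H.mem.2.2 1
    simp only [one_smul] at m
    obtain ⟨t, ht, e4⟩ := exW_sm (w := w.1) (γ := 1) c0 (mul_mem hi (pow_mem m n)) fun τ => by
      rw [one_smul, w1, mul_assoc]
      rfl
    exact w2 (rho_zero w _ (vO_lt.2 z) ht e4)
  have a1 : V (w.1.1 τ) ≤ 1 := Iv.val_int w.2 hj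
  rw [w1, map_mul, map_mul, map_pow, hs, one_pow, mul_one] at a1
  exact (le_mul_of_one_le_left (V.nonneg _) cc).trans a1

/-- the form of a point -/
theorem form (h : Ov V p) (d : p ∣ M) {D : ℤ} {τ : ℍ} (H : Ty V M D τ) : ∃ l : Fm, l ≠ 0 ∧
    evq l τ = 0 ∧ disc l = D ∧ (M : ℤ) ∣ l.1 ∧ ¬ (p : ℤ) ∣ l.2.1 ∧ V (l.1 * τ + l.2.1) = 1 := by
  obtain ⟨m, n, m', n', β, h1, h2, h3, rfl⟩ := H
  have d' : (p : ℤ) ∣ M := Int.natCast_dvd_natCast.2 d
  have u : V (((m' * M : ℤ) : ℂ) * τ + (n' - m * M : ℤ)) = 1 := by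
    have := h.add_eq (x := (-(m * M) : ℤ)) (y := β) (h3 ▸ h.of_dvd (d'.mul_left m).neg_right)
    rw [← h3, ← this, h2]
    congr 1
    push_cast
    ring
  have nd : ¬ (p : ℤ) ∣ n' - m * M := fun c => by
    have c1 := h.of_dvd (n := m * M + n') (by
      rw [show m * M + n' = n' - m * M + 2 * m * M by ring]
      exact dvd_add c (d'.mul_left _))
    have c2 := h.of_dvd (d'.mul_left (n * m' - m * n'))
    have e : β * β = β * (m * M + n' : ℤ) + ((n * m' - m * n') * M : ℤ) := by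
      push_cast
      linear_combination (β - m * M) * h2 + m' * M * h1
    have := h.add_lt (x := β * (m * M + n' : ℤ)) (by rwa [map_mul, h3, one_mul]) c2
    rw [← e, map_mul, h3, one_mul] at this
    exact this.false
  refine ⟨(m' * M, n' - m * M, -n), fun z => nd ?_, ?_, ?_, dvd_mul_left _ _, nd, u⟩
  · rw [show n' - m * M = 0 from congrArg (·.2.1) z]
    exact dvd_zero _
  · rw [evq]
    push_cast
    linear_combination h1 - τ * h2
  · rw [disc]
    ring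

end Mp

open Mp in
/-- the poles are at the roots of `P (j)` -/
theorem mpf {V : AbsoluteValue ℂ ℝ} {p M : ℕ} (h : Ov V p) (M0 : 0 < M) (d : p ∣ M) {u : Mer}
    (hu : u ∈ MF (Gamma0 M)) {s : LS} (hs : ExM 1 s u) (hi : ∀ n, V (s.coeff n) ≤ 1) {P : ℂ[X]}
    (P0 : P ≠ 0) {f : Hol} (e : u * aeval jM P = jm f) {D : ℤ} {τ : ℍ} (H : Ty V M D τ)
    (hP : ∀ b, P.IsRoot b → 1 ≤ V (jf τ - b)) : ∃ c, V c ≤ 1 ∧ Val τ u c := by
  haveI : NeZero M := ⟨M0.ne'⟩
  obtain ⟨c, c1, c2⟩ := prim h P0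
  obtain ⟨l, b1, b2, -, b3, -, b4⟩ := form h d H
  have dn := disc_neg b1 b2
  have hj := h.cm dn b2
  have v1 := c2 _ hj hP
  obtain ⟨k, N, hN, e1⟩ := Nat.exists_eq_pow_mul_and_not_dvd M0.ne' p h.prime.ne_one
  obtain ⟨Q, e2, hQ⟩ := ev_j (C c * P)
  have e3 : u * jm Q = jm (algebraMap ℂ Hol c * f) := by
    rw [← e2, map_mul, aeval_C, mul_left_comm, e, jm, jm, map_mul, ← IsScalarTower.algebraMap_apply]
  have e4 : Q.1 = fun τ => c * P.eval (jf τ) := funext fun τ => by rw [hQ, eval_mul, eval_C]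
  have q1 : V (Q.1 τ) = 1 := e4 ▸ v1
  have q0 : Q.1 τ ≠ 0 := fun z => by simp [z] at q1
  have v2 := hol h (algebraMap ℂ Hol c * f) (e3 ▸ mul_mem hu (e2 ▸ aj_mem _ _)) (by
    obtain ⟨n, n0, t, t1, t2⟩ := c1
    have := exM_period n0 one_ne_zero hs
    rw [one_mul] at this
    refine ⟨n, n0, _, mul_mem ((sb_int n0).2 (mem_Int.2 hi)) t1,
      exL_of (hf := (algebraMap ℂ Hol c * f).2) n0.ne' ?_⟩
    have := this.mul ((e4 ▸ t2).exM_inc Q.2)
    exact (show u * inc Q.1 Q.2 = inc _ _ from e3) ▸ this) e1 hN hj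
    (h.typF dn b2 (pow_pos h.prime.pos k)
      ((Int.natCast_dvd_natCast.2 (Dvd.intro _ e1.symm)).trans b3) b4)
  exact ⟨_ / Q.1 τ, by rwa [map_div₀, q1, div_one], _, Q, q0, e3, (div_mul_cancel₀ _ q0).symm⟩

open Mp in
theorem mpv : MPV := fun V p M h M0 d u hu s hs hi => by
  haveI : NeZero M := ⟨M0.ne'⟩
  obtain ⟨P, P0, f, e⟩ := clear hu
  have key : ∀ b : ℂ, ∃ D' : ℤ, D' ≠ 0 ∧ ∀ D τ, Ty V M D τ → ¬ IsSquare (D * D') →
      1 ≤ V (jf τ - b) := fun b => by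
    by_cases k : ∃ D τ, Ty V M D τ ∧ V (jf τ - b) < 1
    · obtain ⟨D', τ', k1, k2⟩ := k
      obtain ⟨l', a1, a2, rfl, -⟩ := form h d k1
      refine ⟨_, (disc_neg a1 a2).ne, fun D τ H n => not_lt.1 fun z => ?_⟩
      obtain ⟨l, b1, b2, rfl, ⟨t, b3⟩, b4, -⟩ := form h d H
      obtain ⟨r, rfl⟩ := d
      have := r2 V p l l' τ τ' 1 (disc l) l.2.1 h b1 a1 b2 a2 n (by ring)
        ⟨r * t * l.2.2, by rw [disc, b3]; push_cast; ring⟩ b4
      exact this.not_gt (by simpa using h.sub_lt z k2)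
    · exact ⟨1, one_ne_zero, fun D τ H _ => not_lt.1 fun z => k ⟨D, τ, H, z⟩⟩
  choose D' D0 hD using key
  refine ⟨P.roots.toFinset.image D', fun z => ?_, fun D τ H n => ?_⟩
  · obtain ⟨b, -, hb⟩ := Finset.mem_image.1 z
    exact D0 b hb
  exact mpf h M0 d hu hs hi P0 e H fun b hb => hD b D τ H (n _ (Finset.mem_image_of_mem _
    (Multiset.mem_toFinset.2 ((mem_roots P0).2 hb))))

theorem ex_rho : ∃ ρ : ℍ, (ρ : ℂ) ^ 2 + ρ + 1 = 0 ∧ jf ρ = 0 := by
  have h3 : ((√3 : ℝ) : ℂ) ^ 2 = 3 := by exact_mod_cast Real.sq_sqrt (by norm_num : (0 : ℝ) ≤ 3)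
  obtain ⟨ρ, e⟩ : ∃ ρ : ℍ, (ρ : ℂ) ^ 2 + ρ + 1 = 0 := ⟨⟨(-1 + √3 * Complex.I) / 2, by simp⟩, by
    show ((-1 + √3 * Complex.I) / 2 : ℂ) ^ 2 + (-1 + √3 * Complex.I) / 2 + 1 = 0
    linear_combination Complex.I ^ 2 / 4 * h3 + 3 / 4 * Complex.I_sq⟩
  let γ : SL(2, ℤ) := ⟨!![0, -1; 1, 1], by simp [Matrix.det_fin_two]⟩
  have n0 : (ρ : ℂ) + 1 ≠ 0 := fun z => ρ.im_pos.ne' (by simpa using congrArg Complex.im z)
  have e1 : γ • ρ = ρ := UpperHalfPlane.ext (by
    rw [coe_specialLinearGroup_apply]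
    simp [γ]
    field_simp
    linear_combination -e)
  have e2 := congrFun (isMF_E4.slash γ (Subgroup.mem_top _)) ρ
  rw [ModularForm.SL_slash_apply, e1, ModularGroup.denom_apply] at e2
  simp [γ, zpow_ofNat] at e2
  refine ⟨ρ, e, ?_⟩
  rw [jf, show ModularForm.E₄ ρ = 0 by
    field_simp at e2
    linear_combination (1 - (ρ : ℂ)) / 3 * e2 -
      ModularForm.E₄ ρ * ((ρ : ℂ) ^ 3 + 2 * ρ ^ 2 - ρ - 3) / 3 * e]
  simp

open Mp in
/-- ordinary points at two -/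
theorem j_unit {V : AbsoluteValue ℂ ℝ} {M : ℕ} (h : Ov V 2) (d : 2 ∣ M) {D : ℤ} {τ : ℍ}
    (H : Ty V M D τ) : V (jf τ) = 1 := by
  obtain ⟨l, b1, b2, rfl, ⟨t, b3⟩, b4, -⟩ := form h d H
  obtain ⟨ρ, r1, r0⟩ := ex_rho
  obtain ⟨r, rfl⟩ := d
  have := r2 V 2 l (1, 1, 1) τ ρ 1 (disc l) l.2.1 h b1 (by simp) b2 (by simpa [evq] using r1)
    (fun ⟨x, hx⟩ => by
      obtain ⟨m, hm⟩ : Odd l.2.1 := Int.not_even_iff_odd.1 fun z => b4 z.two_dvd
      have k : ∀ a b c : ZMod 8, ((2 * a + 1) ^ 2 - 8 * b) * -3 ≠ c * c := by decide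
      refine k m (r * t * l.2.2 : ℤ) x ?_
      have : ((2 * m + 1) ^ 2 - 8 * (r * t * l.2.2)) * -3 = x * x := by
        rw [← hx, disc, disc, b3, hm]
        push_cast
        ring
      exact_mod_cast congrArg (Int.cast : ℤ → ZMod 8) this) (by ring)
    ⟨r * t * l.2.2, by rw [disc, b3]; push_cast; ring⟩ b4
  rw [r0, sub_zero] at this
  exact (h.cm (disc_neg b1 b2) b2).antisymm this

end Vale.Agent.P004F.Qx
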